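import Crest.Agent.X261.Har.Hz
import Crest.Agent.X261.Cov.A
import Crest.Agent.R273.RMan4_798

/-!
# X261, HAR (helper94), file Alb: the Albanese map of a finite covering, on the universal covering

* `HolF B f`  : `f : M → W` is holomorphic in all charts;
* `AlbD D H q`: the Albanese data; `exists_alb`.
-/

set_option autoImplicit false
set_option linter.unusedSectionVars false
set_option linter.style.haveILetI false

open Set Filter Topology Complex
open scoped ContDiff Matrix ComplexConjugate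

namespace Crest.Agent.X261.Har

open Crest.Agent.R275 Crest.Agent.R275.Geo Crest.Agent.R275.Core144 Crest.Agent.R275.GC293
open Crest.Agent.R275.EDR890
open Crest.Agent.R273.Kah_333 Crest.Agent.R273.Alb645 Crest.Agent.R273.UCov_914
open Crest.Agent.R273.Map_835

noncomputable section

section hol

variable {n m : ℕ} {M N : Type} [TopologicalSpace M] [TopologicalSpace N] {B : Atl n M}
  {B' : Atl m N} {W : Type*} [NormedAddCommGroup W] [NormedSpace ℂ W]

/-- holomorphic in all charts -/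
def HolF (B : Atl n M) (f : M → W) : Prop :=
  ∀ p, DifferentiableOn ℂ (fun z => f ((B.e p).symm z)) (B.e p).target

theorem HolF.comp {f : N → W} (hf : HolF B' f) {φ : M → N} (hφ : HolMap B B' φ) :
    HolF B (fun x => f (φ x)) := by
  intro i z hz
  obtain ⟨j, hj⟩ := B'.cover (φ ((B.e i).symm z))
  have hzd : z ∈ dm B B' φ i j := ⟨hz, hj⟩
  have h1 := hφ.diffAt hzd
  have h2 : DifferentiableAt ℂ (fun w => f ((B'.e j).symm w)) (R273.Map_835.rd B B' φ i j z) :=
    (hf j).differentiableAt ((B'.e j).open_target.mem_nhds ((B'.e j).map_source hj))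
  have h3 := DifferentiableAt.comp z (f := R273.Map_835.rd B B' φ i j) h2 h1
  refine (h3.congr_of_eventuallyEq ?_).differentiableWithinAt
  filter_upwards [(hφ.isOpen_dm i j).mem_nhds hzd] with w hw
  simp only [Function.comp, R273.Map_835.rd]
  rw [(B'.e j).left_inv hw.2]

theorem HolF.clm {W' : Type*} [NormedAddCommGroup W'] [NormedSpace ℂ W'] {f : M → W}
    (hf : HolF B f) (L : W →L[ℂ] W') : HolF B (fun x => L (f x)) :=
  fun p => L.differentiable.comp_differentiableOn (hf p)

theorem holF_pi {q : ℕ} {f : M → Cn q} (h : ∀ k, HolF B (fun x => f x k)) : HolF B f :=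
  fun p => differentiableOn_euclidean.2 fun k => h k p

theorem HolF.sm [CompleteSpace W] {f : M → W} (hf : HolF B f) : B.Sm f := by
  intro p z hz
  have h1 := Crest.Agent.R266.SCV.analyticOnNhd_of_differentiableOn (B.e p).open_target (hf p)
  exact ((h1 z hz).contDiffAt.restrict_scalars ℝ).contDiffWithinAt.of_le le_top

end hol

variable {n : ℕ} {X : Type} [TopologicalSpace X] {A : Atl n X} {G : Type} [Group G]

/-- the Albanese data of the finite covering defined by `H`, on the covering `D.cov G` -/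
structure AlbD (D : MonD A G) (H : Subgroup G) (q : ℕ) where
  a : D.cov G → Cn q
  L : G →* (Cn q →L[ℂ] Cn q)
  lam : G → Cn q
  hol : HolF (D.atl G) a
  eqv : ∀ (g : G) (e : D.cov G), a (g • e) = L g (a e) + lam g
  LH : ∀ g ∈ H, L g = 1
  univ : ∀ φ : H → ℝ, (∀ g h, φ (g * h) = φ g + φ h) →
    ∃! l : Cn q →L[ℝ] ℝ, ∀ h : H, φ h = l (lam h)

theorem alb_abs (D : MonD A G) (H : Subgroup G) [hH : H.Normal] (e0 : D.cov G) {V : Type}
    [AddCommGroup V] [Module ℂ V] [FiniteDimensional ℂ V] (F : V →ₗ[ℂ] (D.cov G → ℂ))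
    (hol : ∀ b, HolF (D.atl G) (F b))
    (hd : ∀ b (h : H) e, F b ((h : G) • e) = F b e + F b ((h : G) • e0))
    (hinj : ∀ b, (∀ h : H, (F b ((h : G) • e0)).re = 0) → b = 0)
    (hex : ∀ f : D.cov G → ℂ, HolF (D.atl G) f →
      (∀ h : H, ∃ c, ∀ e, f ((h : G) • e) = f e + c) → ∃ b, ∀ e, f e = F b e + f e0)
    (hsur : ∀ φ : H → ℝ, (∀ g h, φ (g * h) = φ g + φ h) →
      ∃ b, ∀ h : H, φ h = (F b ((h : G) • e0)).re) : ∃ q, Nonempty (AlbD D H q) := by
  set q := Module.finrank ℂ V
  set bs := Module.finBasis ℂ V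
  set a : D.cov G → Cn q := fun e => WithLp.toLp 2 fun k => F (bs k) e with ha
  have hre : ∀ (l : Cn q →L[ℝ] ℝ), ∃ c : Fin q → ℂ, ∀ z : Cn q, l z = (∑ k, c k * z k).re := by
    intro l
    obtain ⟨c, hc⟩ := exists_reF
      (l.toLinearMap ∘ₗ (WithLp.linearEquiv 2 ℝ (Fin q → ℂ)).symm.toLinearMap)
    exact ⟨c, fun z => congrArg (fun f => f (z : Fin q → ℂ)) hc⟩
  have hper : ∀ (c : Fin q → ℂ) (e : D.cov G), ∑ k, c k * a e k = F (∑ k, c k • bs k) e := by
    intro c e
    rw [map_sum, Finset.sum_apply]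
    exact Finset.sum_congr rfl fun k _ => by rw [map_smul]; rfl
  have hsp : ∀ (l : Cn q →L[ℝ] ℝ), (∀ h : H, l (a ((h : G) • e0)) = 0) → l = 0 := by
    intro l hl
    obtain ⟨c, hc⟩ := hre l
    have h1 : ∑ k, c k • bs k = 0 := hinj _ fun h => by rw [← hper, ← hc, hl]
    have h2 := Fintype.linearIndependent_iff.1 bs.linearIndependent c h1
    ext z
    simp [hc, h2]
  have hext : ∀ L L' : Cn q →L[ℂ] Cn q, (∀ e, L (a e) = L' (a e)) → L = L' := by
    intro L L' h
    ext z k
    have h1 := hsp (Complex.reCLM ∘L ((pj k ∘L (L - L')).restrictScalars ℝ))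
      fun g => by simp [h]
    have h2 := hsp (Complex.imCLM ∘L ((pj k ∘L (L - L')).restrictScalars ℝ))
      fun g => by simp [h]
    have h3 := congrArg (fun f => f z) h1
    have h4 := congrArg (fun f => f z) h2
    simp [pj_apply, sub_eq_zero] at h3 h4
    exact Complex.ext h3 h4
  have hL : ∀ g : G, ∃ L : Cn q →L[ℂ] Cn q, ∀ e, a (g • e) = L (a e) + a (g • e0) := by
    intro g
    have h1 : ∀ k, ∃ b, ∀ e, F (bs k) (g • e) = F b e + F (bs k) (g • e0) := fun k =>
      hex (fun e => F (bs k) (g • e)) ((hol _).comp (D.holMap_deck g)) fun h =>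
        ⟨F (bs k) ((g * h * g⁻¹) • e0), fun e => by
          rw [← hd (bs k) ⟨g * h * g⁻¹, hH.conj_mem _ h.2 g⟩, smul_smul, smul_smul,
            inv_mul_cancel_right]⟩
    choose b hb using h1
    refine ⟨(EuclideanSpace.equiv (Fin q) ℂ).symm.toContinuousLinearMap ∘L
      ContinuousLinearMap.pi fun k => lf fun l => bs.repr (b k) l, fun e => ?_⟩
    ext k
    change F (bs k) (g • e) = lf (fun l => bs.repr (b k) l) (a e) + F (bs k) (g • e0)
    rw [hb k e, lf_apply, hper, bs.sum_repr]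
  choose L hL using hL
  have hLH : ∀ g ∈ H, L g = 1 := fun g hg => hext _ _ fun e => by
    have h1 : a (g • e) = a e + a (g • e0) := by
      ext k
      exact hd (bs k) ⟨g, hg⟩ e
    exact add_right_cancel ((hL g e).symm.trans h1)
  have hmul : ∀ g g', L (g * g') = L g * L g' := fun g g' => hext _ _ fun e => by
    have h1 := hL (g * g') e
    rw [mul_smul, mul_smul, hL g (g' • e), hL g (g' • e0), hL g' e, map_add] at h1
    rw [add_assoc] at h1
    exact (add_right_cancel h1).symm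
  refine ⟨q, ⟨⟨a, ⟨⟨L, hLH 1 H.one_mem⟩, hmul⟩, fun g => a (g • e0),
    holF_pi fun k => hol _, hL, hLH, fun φ hφ => ?_⟩⟩⟩
  obtain ⟨b, hb⟩ := hsur φ hφ
  refine existsUnique_of_exists_of_unique
    ⟨Complex.reCLM ∘L (lf fun k => bs.repr b k).restrictScalars ℝ, fun h => ?_⟩
    fun l l' h h' => sub_eq_zero.1 (hsp _ fun g => ?_)
  · change φ h = (lf (fun k => bs.repr b k) (a ((h : G) • e0))).re
    rw [lf_apply, hper, bs.sum_repr]
    exact hb h
  · change l _ - l' _ = 0
    rw [← h g, ← h' g, sub_self]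

section main

variable [T2Space X] [CompactSpace X] [Finite A.ι] (D : MonD A G)
  [SimplyConnectedSpace (D.cov G)] (hA : GoodA A) (H : Subgroup G) [H.FiniteIndex]
  (e0 : D.cov G)

/-- primitives of the forms of the finite covering -/
def Fp : H1 (D.atl (G ⧸ H)) →ₗ[ℂ] (D.cov G → ℂ) where
  toFun b e := prm (D.sub H) (D.goodA hA) (D.toSub H e0) b (D.toSub H e)
  map_add' b b' := funext fun _ => prm_add _ _ _ b b' _
  map_smul' c b := funext fun _ => prm_smul _ _ _ c b _

theorem Fp_apply (b : H1 (D.atl (G ⧸ H))) (e : D.cov G) :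
    Fp D hA H e0 b e = prm (D.sub H) (D.goodA hA) (D.toSub H e0) b (D.toSub H e) := rfl

theorem Fp_per (b : H1 (D.atl (G ⧸ H))) (h : H) :
    Fp D hA H e0 b ((h : G) • e0) = per (D.sub H) (D.goodA hA) (D.toSub H e0) b h := by
  rw [Fp_apply, D.toSub_deck]
  rfl

include hA in
/-- **the Albanese map** -/
theorem exists_alb (P : Part A) (K : Kah A) [H.Normal] : ∃ q, Nonempty (AlbD D H q) := by
  obtain ⟨e0⟩ := (inferInstance : Nonempty (D.cov G))
  letI := Fintype.ofFinite (G ⧸ H)
  have hfg : Group.FG H := Cov.A.fg (D.sub H)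
  have hfd : FiniteDimensional ℂ (H1 (D.atl (G ⧸ H))) :=
    finiteDimensional_H1 (D.sub H) (D.goodA hA) (D.toSub H e0)
  have hZ := hodgeZ (D.pullPart (G ⧸ H) P) (R273.RMan4_798.pullKah D (G ⧸ H) K)
  refine alb_abs D H e0 (V := H1 (D.atl (G ⧸ H))) (Fp D hA H e0) (fun b => ?_)
    (fun b h e => ?_) (fun b hb => ?_) (fun f hf hc => ?_) fun φ hφ => ?_
  · exact HolF.comp (f := prm (D.sub H) (D.goodA hA) (D.toSub H e0) b)
      (fun p => (prm_isPrim (D.sub H) (D.goodA hA) (D.toSub H e0) b).diffOn p) (D.holMap_toSub H)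
  · rw [Fp_per, Fp_apply, Fp_apply, D.toSub_deck, prm_deck]
  · exact eq_zero_of_re_per (D.sub H) (D.goodA hA) (D.toSub H e0) b fun h => by
      rw [← Fp_per D hA, hb]
  · obtain ⟨b, hb, hp⟩ := exists_form (D.sub H) (H := fun e => f (D.ofSub H e))
      (hf.comp (D.holMap_ofSub H)) fun h => by
        obtain ⟨c, hc'⟩ := hc h
        exact ⟨c, fun e => by rw [D.ofSub_deck, hc']⟩
    refine ⟨⟨b, hb⟩, fun e => ?_⟩
    have h1 := hp.sub_eq (prm_isPrim (D.sub H) (D.goodA hA) (D.toSub H e0) ⟨b, hb⟩)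
      (D.toSub H e) (D.toSub H e0)
    rw [prm_zero, D.ofSub_toSub, D.ofSub_toSub] at h1
    rw [Fp_apply]
    linear_combination h1
  · obtain ⟨b, hb⟩ := exists_per (D.sub H) (D.goodA hA) (D.toSub H e0) _ hZ φ hφ
    exact ⟨b, fun h => by rw [Fp_per, hb]⟩

end main

end

end Crest.Agent.X261.Har
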