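import Crest.Agent.X261.Har.HeA
import Crest.Agent.X261.Har.Alb

/-!
# X261, HAR (helper94), file HeB: no Heisenberg quotient

* `HD.symm` : local form;
* `heis`    : if `β (g h) = β g + β h + B (lam g) (lam h)` and `da` is onto at one point, then `B`
  is symmetric.
-/

set_option autoImplicit false
set_option linter.unusedSectionVars false
set_option linter.style.haveILetI false

open Set Filter Topology Complex
open scoped ContDiff Matrix ComplexConjugate ComplexOrder

namespace Crest.Agent.X261.Har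

open Crest.Agent.R275 Crest.Agent.R275.Geo Crest.Agent.R275.Core144 Crest.Agent.R275.EDR890
open Crest.Agent.R275.C1d194 (smAt_ofReal)
open Crest.Agent.R275.OmT75 (dj dl)
open Crest.Agent.R273.Kah_333 Crest.Agent.R273.StV_37 Crest.Agent.R273.Green_5
open Crest.Agent.R273.GreenM_5 Crest.Agent.R273.UCov_914 Crest.Agent.R273.PiEnd_836

noncomputable section

variable {n q : ℕ} {M : Type} [TopologicalSpace M] {A : Atl n M}

/-- a real linear map of `ℂ^q` -/
def Lm (Pq R : Matrix (Fin q) (Fin q) ℂ) (v : Fin q → ℂ) : Fin q → ℂ := Pq *ᵥ v + R *ᵥ star v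

theorem Lm_add (Pq R : Matrix (Fin q) (Fin q) ℂ) (v w : Fin q → ℂ) :
    Lm Pq R (v + w) = Lm Pq R v + Lm Pq R w := by
  unfold Lm
  rw [star_add, Matrix.mulVec_add, Matrix.mulVec_add]
  abel

theorem Lm_apply (Pq R : Matrix (Fin q) (Fin q) ℂ) (v : Fin q → ℂ) (l : Fin q) :
    Lm Pq R v l = ∑ k, Pq l k * v k + ∑ k, R l k * conj (v k) := rfl

/-- local data -/
structure HD (A : Atl n M) (Pq R : Matrix (Fin q) (Fin q) ℂ) where
  a : A.ι → M → Fin q → ℂ
  f : A.ι → M → ℂ
  asm : ∀ i k, A.SmAt i (fun y => a i y k)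
  hol : ∀ i, ∀ x ∈ (A.e i).source, ∀ k b, A.db i b (fun y => a i y k) x = 0
  fsm : ∀ i, A.SmAt i (f i)
  real : ∀ i y, conj (f i y) = f i y
  tr : ∀ i j, ∃ (l : Fin q → ℂ) (c : ℂ), ∀ y ∈ (A.e i).source ∩ (A.e j).source,
    a i y = a j y + l ∧ f i y = f j y +
      (∑ k, Lm Pq R l k * a j y k + conj (∑ k, Lm Pq R l k * a j y k)) + c

namespace HD

variable {Pq R : Matrix (Fin q) (Fin q) ℂ} (H : HD A Pq R)

/-- the differential of `a` -/
def Φ (i : A.ι) (x : M) : Matrix (Fin q) (Fin n) ℂ :=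
  Matrix.of fun k b => dl A i b (fun y => H.a i y k) x

theorem Φ_sm (i : A.ι) (k : Fin q) (b : Fin n) : A.SmAt i (fun y => H.Φ i y k b) :=
  smAt_dl (H.asm i k) b

theorem Φ_tr {i j : A.ι} {x : M} (hx : x ∈ (A.e i).source ∩ (A.e j).source) :
    H.Φ i x = H.Φ j x * Jm A i j x := by
  ext k b
  have h : Aff A (fun _ _ => 1) (fun i y => H.a i y k) := aff_of (fun i => H.asm i k) fun i j => by
    obtain ⟨l, c, h⟩ := H.tr i j
    exact ⟨l k, fun y hy => by rw [(h y hy).1, one_mul]; rfl⟩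
  have h1 := congrFun (h.c10 i j x hx) b
  rw [one_smul] at h1
  refine h1.trans ?_
  change ∑ d, A.J i j x d b * H.Φ j x k d = ∑ d, H.Φ j x k d * A.J i j x d b
  exact Finset.sum_congr rfl fun d _ => mul_comm _ _

variable {i : A.ι} {x : M}

theorem dl_ca (hx : x ∈ (A.e i).source) (k : Fin q) (b : Fin n) :
    dl A i b (fun y => conj (H.a i y k)) x = 0 := by
  rw [dl_conj, H.hol i x hx, map_zero]

theorem dl_cΦ (hx : x ∈ (A.e i).source) (k : Fin q) (b c : Fin n) :
    dl A i c (fun y => conj (H.Φ i y k b)) x = 0 := by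
  have h1 : A.db i c (fun y => H.a i y k) =ᶠ[𝓝 x] fun _ => 0 := by
    filter_upwards [(A.e i).open_source.mem_nhds hx] with y hy using H.hol i y hy k c
  have h2 : A.db i c (fun y => H.Φ i y k b) x = 0 :=
    (db_dl_comm (H.asm i k) hx b c).trans (by rw [dl_congr hx h1, dl_cst])
  rw [dl_conj, h2, map_zero]

theorem dl_Φ (hx : x ∈ (A.e i).source) (k : Fin q) (b c : Fin n) :
    dl A i c (fun y => H.Φ i y k b) x = dl A i b (fun y => H.Φ i y k c) x :=
  dl_dl_comm (H.asm i k) hx c b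

theorem dl_lin (hx : x ∈ (A.e i).source) (c : Fin q → ℂ) (b : Fin n) :
    dl A i b (fun y => ∑ k, c k * H.a i y k) x = ∑ k, c k * H.Φ i x k b := by
  rw [dl_fsum fun k _ => (da_const _).mul (da_of (H.asm i k) hx)]
  exact Finset.sum_congr rfl fun k _ => dl_cmul _ (da_of (H.asm i k) hx) b

theorem dl_clin (hx : x ∈ (A.e i).source) (c : Fin q → ℂ) (b : Fin n) :
    dl A i b (fun y => ∑ k, c k * conj (H.a i y k)) x = 0 := by
  rw [dl_fsum fun k _ => (da_const _).mul (da_of (H.asm i k) hx).conj]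
  exact Finset.sum_eq_zero fun k _ => by
    rw [dl_cmul _ (da_of (H.asm i k) hx).conj b, H.dl_ca hx, mul_zero]

theorem sm_lin (i : A.ι) (c : Fin q → ℂ) : A.SmAt i (fun y => ∑ k, c k * H.a i y k) :=
  ContDiffOn.sum fun k _ => contDiffOn_const.mul (H.asm i k)

theorem sm_clin (i : A.ι) (c : Fin q → ℂ) : A.SmAt i (fun y => ∑ k, c k * conj (H.a i y k)) :=
  ContDiffOn.sum fun k _ => contDiffOn_const.mul (smAt_conj (H.asm i k))

theorem sm_L (i : A.ι) (l : Fin q) : A.SmAt i (fun y => Lm Pq R (H.a i y) l) :=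
  (H.sm_lin i (Pq l)).add (H.sm_clin i (R l))

theorem dl_L (hx : x ∈ (A.e i).source) (l : Fin q) (b : Fin n) :
    dl A i b (fun y => Lm Pq R (H.a i y) l) x = (Pq * H.Φ i x) l b := by
  simp only [Lm_apply]
  rw [dl_add (da_of (H.sm_lin i (Pq l)) hx) (da_of (H.sm_clin i (R l)) hx), H.dl_lin hx,
    H.dl_clin hx, add_zero, Matrix.mul_apply]

theorem dl_cL (hx : x ∈ (A.e i).source) (l : Fin q) (b : Fin n) :
    dl A i b (fun y => conj (Lm Pq R (H.a i y) l)) x = (R.map conj * H.Φ i x) l b := by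
  simp only [Lm_apply, map_add, map_sum, map_mul, conj_conj]
  rw [dl_add (da_of (H.sm_clin i fun k => conj (Pq l k)) hx)
    (da_of (H.sm_lin i fun k => conj (R l k)) hx), H.dl_lin hx, H.dl_clin hx, zero_add,
    Matrix.mul_apply]
  rfl

theorem cf_pb (N : Matrix (Fin q) (Fin q) ℂ) : CF A (fun i x => pb (H.Φ i x) N) := by
  have e : ∀ i a b, (fun y => pb (H.Φ i y) N a b) =
      fun y => ∑ l, (∑ k, N k l * H.Φ i y k a) * conj (H.Φ i y l b) := by
    intro i a b
    funext y
    simp only [pb, Matrix.mul_apply, Matrix.transpose_apply, Matrix.map_apply, mul_comm]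
  have s1 : ∀ i a l, A.SmAt i (fun y => ∑ k, N k l * H.Φ i y k a) := fun i a l =>
    ContDiffOn.sum fun k _ => contDiffOn_const.mul (H.Φ_sm i k a)
  refine cf_of (fun i a b => ?_) (fun i j x hx => ?_) fun i x hx a b c => ?_
  · rw [e]
    exact ContDiffOn.sum fun l _ => (s1 i a l).mul (smAt_conj (H.Φ_sm i l b))
  · simp only [pb]
    rw [H.Φ_tr hx, Matrix.transpose_mul, Matrix.map_mul]
    simp only [Matrix.mul_assoc]
  · have key : ∀ a c, dl A i c (fun y => pb (H.Φ i y) N a b) x =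
        ∑ l, (∑ k, N k l * dl A i c (fun y => H.Φ i y k a) x) * conj (H.Φ i x l b) := by
      intro a c
      rw [e, dl_fsum fun l _ => (da_of (s1 i a l) hx).mul (da_of (H.Φ_sm i l b) hx).conj]
      refine Finset.sum_congr rfl fun l _ => ?_
      rw [dlm (da_of (s1 i a l) hx) (da_of (H.Φ_sm i l b) hx).conj hx, H.dl_cΦ hx, mul_zero,
        add_zero, dl_fsum fun k _ => (da_const _).mul (da_of (H.Φ_sm i k a) hx)]
      congr 1
      exact Finset.sum_congr rfl fun k _ => dl_cmul _ (da_of (H.Φ_sm i k a) hx) c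
    rw [key, key]
    simp only [H.dl_Φ hx _ a c]

/-- the global `(1,0)` form -/
def η (i : A.ι) (x : M) : Fin n → ℂ :=
  fun b => dl A i b (H.f i) x - ∑ l, H.Φ i x l b * Lm Pq R (H.a i x) l

theorem η_sm (i : A.ι) (b : Fin n) : A.SmAt i (fun y => H.η i y b) :=
  (smAt_dl (H.fsm i) b).sub (ContDiffOn.sum fun l _ => (H.Φ_sm i l b).mul (H.sm_L i l))

theorem η_tr : C10 A (fun _ _ _ => 1) H.η := by
  intro i j x hx
  obtain ⟨l, c, h⟩ := H.tr i j
  have h1 : H.f i =ᶠ[𝓝 x] fun y => H.f j y +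
      (∑ k, Lm Pq R l k * H.a j y k + ∑ k, conj (Lm Pq R l k) * conj (H.a j y k)) + c := by
    filter_upwards [ov_nhds hx] with y hy
    rw [(h y hy).2]
    simp only [map_sum, map_mul]
  have d1 := da_of (H.fsm j) hx.2
  have d2 := da_of (H.sm_lin j (Lm Pq R l)) hx.2
  have d3 := da_of (H.sm_clin j fun k => conj (Lm Pq R l k)) hx.2
  funext b
  rw [one_smul]
  change dl A i b (H.f i) x - ∑ k, H.Φ i x k b * Lm Pq R (H.a i x) k =
    ∑ d, A.J i j x d b * (dl A j d (H.f j) x - ∑ k, H.Φ j x k d * Lm Pq R (H.a j x) k)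
  rw [dl_congr hx.1 h1, dlc ((d1.add (d2.add d3)).add (da_const c)) hx, (h x hx).1, Lm_add,
    H.Φ_tr hx]
  simp only [Matrix.mul_apply, Finset.sum_mul, Jm_apply]
  rw [Finset.sum_comm, ← Finset.sum_sub_distrib]
  refine Finset.sum_congr rfl fun d _ => ?_
  rw [dl_add (d1.add (d2.add d3)) (da_const c), dl_cst, dl_add d1 (d2.add d3), dl_add d2 d3,
    H.dl_lin hx.2, H.dl_clin hx.2]
  simp only [mul_sub, mul_add, add_zero, Finset.mul_sum, Pi.add_apply, Finset.sum_add_distrib]
  have e1 : ∑ k, A.J i j x d b * (Lm Pq R l k * H.Φ j x k d) =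
      ∑ k, H.Φ j x k d * A.J i j x d b * Lm Pq R l k :=
    Finset.sum_congr rfl fun k _ => by ring
  have e2 : ∑ k, A.J i j x d b * (H.Φ j x k d * Lm Pq R (H.a j x) k) =
      ∑ k, H.Φ j x k d * A.J i j x d b * Lm Pq R (H.a j x) k :=
    Finset.sum_congr rfl fun k _ => by ring
  rw [e1, e2]
  ring

theorem Tm_η (hx : x ∈ (A.e i).source) :
    (H.Φ i x)ᵀ * (Pq - Pqᵀ) * H.Φ i x = Tm A H.η i x - (Tm A H.η i x)ᵀ := by
  have key : ∀ a b, Tm A H.η i x a b = dl A i a (dl A i b (H.f i)) x -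
      ∑ l, dl A i a (fun y => H.Φ i y l b) x * Lm Pq R (H.a i x) l -
        ((H.Φ i x)ᵀ * (Pq * H.Φ i x)) b a := by
    intro a b
    have d1 := fun l => (da_of (H.Φ_sm i l b) hx).mul (da_of (H.sm_L i l) hx)
    rw [Tm_apply]
    simp only [η]
    rw [dl_sub (da_of (smAt_dl (H.fsm i) b) hx) (da_sum fun l _ => d1 l),
      dl_fsum fun l _ => d1 l, sub_sub, Matrix.mul_apply, ← Finset.sum_add_distrib]
    congr 1
    refine Finset.sum_congr rfl fun l _ => ?_
    rw [dlm (da_of (H.Φ_sm i l b) hx) (da_of (H.sm_L i l) hx) hx, H.dl_L hx]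
    rfl
  ext a b
  have e : ((H.Φ i x)ᵀ * (Pq * H.Φ i x)) b a = ((H.Φ i x)ᵀ * Pqᵀ * H.Φ i x) a b := by
    rw [← Matrix.transpose_apply (_ * _) a b, Matrix.transpose_mul, Matrix.transpose_mul,
      Matrix.transpose_transpose]
  rw [Matrix.sub_apply, Matrix.transpose_apply, key, key, dl_dl_comm (H.fsm i) hx a b, e,
    Matrix.mul_sub, Matrix.sub_mul, Matrix.sub_apply, ← Matrix.mul_assoc]
  simp only [H.dl_Φ hx _ a b]
  ring

theorem Tm_cη (hx : x ∈ (A.e i).source) :
    Tm A (fun i x => star (H.η i x)) i x = hm A (H.f i) i x - pb (H.Φ i x) Rᴴ := by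
  ext a b
  have e : (fun y => star (H.η i y) b) = fun y => A.db i b (H.f i) y -
      ∑ l, conj (H.Φ i y l b) * conj (Lm Pq R (H.a i y) l) := by
    funext y
    rw [db_eq_conj]
    simp only [H.real, Pi.star_apply, η, RCLike.star_def, map_sub, map_sum, map_mul]
  have d1 := fun l => (da_of (H.Φ_sm i l b) hx).conj.mul (da_of (H.sm_L i l) hx).conj
  rw [Tm_apply, e, dl_sub (da_of ((H.fsm i).db b) hx) (da_sum fun l _ => d1 l),
    dl_fsum fun l _ => d1 l, Matrix.sub_apply, hm_apply, pb, Matrix.mul_apply]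
  congr 1
  refine Finset.sum_congr rfl fun l _ => ?_
  rw [dlm (da_of (H.Φ_sm i l b) hx).conj (da_of (H.sm_L i l) hx).conj hx, H.dl_cΦ hx, H.dl_cL hx,
    zero_mul, zero_add, mul_comm]
  simp only [Matrix.mul_apply, Matrix.map_apply, Matrix.transpose_apply,
    Matrix.conjTranspose_apply, RCLike.star_def, mul_comm]

/-- **local form** -/
theorem symm [T2Space M] [CompactSpace M] [Finite A.ι] (P : Part A) (K : Kah A)
    (hx : x ∈ (A.e i).source) {Ψ : Matrix (Fin n) (Fin q) ℂ} (hΨ : H.Φ i x * Ψ = 1) :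
    Pqᵀ = Pq ∧ Rᴴ = R := by
  have hΨ' : Ψᵀ * (H.Φ i x)ᵀ = 1 := by rw [← Matrix.transpose_mul, hΨ, Matrix.transpose_one]
  constructor
  · have e : ∀ i a b, (fun y => ((H.Φ i y)ᵀ * (Pq - Pqᵀ) * H.Φ i y) a b) =
        fun y => ∑ l, ∑ k, (Pq - Pqᵀ) k l * (H.Φ i y k a * H.Φ i y l b) := by
      intro i a b
      funext y
      simp only [Matrix.mul_apply, Matrix.transpose_apply, Finset.sum_mul]
      exact Finset.sum_congr rfl fun l _ => Finset.sum_congr rfl fun k _ => by ring
    have h1 := two_zero P K (σ := fun i x => (H.Φ i x)ᵀ * (Pq - Pqᵀ) * H.Φ i x) H.η_sm H.η_tr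
      (fun i a b => by
        rw [e]
        exact ContDiffOn.sum fun l _ => ContDiffOn.sum fun k _ =>
          contDiffOn_const.mul ((H.Φ_sm i k a).mul (H.Φ_sm i l b)))
      (fun i x hx => H.Tm_η hx)
      (fun i j x hx => by
        rw [H.Φ_tr hx, Matrix.transpose_mul]
        simp only [Matrix.mul_assoc])
      (fun i x hx a b c => by
        have e' : (fun y => conj (((H.Φ i y)ᵀ * (Pq - Pqᵀ) * H.Φ i y) a b)) = fun y =>
            ∑ l, ∑ k, conj ((Pq - Pqᵀ) k l) * (conj (H.Φ i y k a) * conj (H.Φ i y l b)) := by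
          funext y
          rw [congrFun (e i a b) y]
          simp only [map_sum, map_mul]
        have d1 := fun l k => (da_of (H.Φ_sm i k a) hx).conj.mul (da_of (H.Φ_sm i l b) hx).conj
        rw [e', dl_fsum fun l _ => da_sum fun k _ => (da_const _).mul (d1 l k)]
        refine Finset.sum_eq_zero fun l _ => ?_
        rw [dl_fsum fun k _ => (da_const _).mul (d1 l k)]
        refine Finset.sum_eq_zero fun k _ => ?_
        rw [dl_cmul _ (d1 l k), dlm (da_of (H.Φ_sm i k a) hx).conj (da_of (H.Φ_sm i l b) hx).conj hx,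
          H.dl_cΦ hx, H.dl_cΦ hx]
        ring) i x hx
    have h2 : Pq - Pqᵀ = Ψᵀ * ((H.Φ i x)ᵀ * (Pq - Pqᵀ) * H.Φ i x) * Ψ := by
      rw [show Ψᵀ * ((H.Φ i x)ᵀ * (Pq - Pqᵀ) * H.Φ i x) * Ψ =
        (Ψᵀ * (H.Φ i x)ᵀ) * (Pq - Pqᵀ) * (H.Φ i x * Ψ) by simp only [Matrix.mul_assoc], hΨ, hΨ',
        Matrix.one_mul, Matrix.mul_one]
    rw [h1, Matrix.mul_zero, Matrix.zero_mul] at h2
    exact (sub_eq_zero.1 h2).symm
  · have h1 := one_one P K H.cf_pb (β := fun i x => star (H.η i x)) (T := R - Rᴴ)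
      (fun i b => smAt_conj (H.η_sm i b)) (by simpa only [map_one] using H.η_tr.cj)
      (fun i x hx => by
        have h2 := hm_conj (H.fsm i) hx
        simp only [H.real] at h2
        rw [H.Tm_cη hx, Matrix.conjTranspose_sub, ← h2, pb_conjT,
          Matrix.conjTranspose_conjTranspose, pb_sub]
        abel) hx fun v w h => by
          have h2 := congrArg (Ψᵀ *ᵥ ·) h
          simpa only [Matrix.mulVec_mulVec, hΨ', Matrix.one_mulVec] using h2
    exact (sub_eq_zero.1 h1).symm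

end HD

theorem exists_Lm (B : Cn q →L[ℝ] Cn q →L[ℝ] ℝ) : ∃ Pq R : Matrix (Fin q) (Fin q) ℂ,
    ∀ v w : Cn q, (B v w : ℂ) =
      ∑ k, Lm Pq R v k * w k + conj (∑ k, Lm Pq R v k * w k) := by
  set C : Fin q → Cn q →L[ℝ] ℂ := fun k => (1 / 2 : ℂ) •
    (Complex.ofRealCLM ∘L B.flip (EuclideanSpace.single k 1) -
      I • Complex.ofRealCLM ∘L B.flip (EuclideanSpace.single k I)) with hC
  refine ⟨Matrix.of fun k m => (1 / 2 : ℂ) • (C k (EuclideanSpace.single m 1) -
      I • C k (EuclideanSpace.single m I)),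
    Matrix.of fun k m => (1 / 2 : ℂ) • (C k (EuclideanSpace.single m 1) +
      I • C k (EuclideanSpace.single m I)), fun v w => ?_⟩
  have h1 : ∀ k, Lm (Matrix.of fun k m => (1 / 2 : ℂ) • (C k (EuclideanSpace.single m 1) -
      I • C k (EuclideanSpace.single m I)))
      (Matrix.of fun k m => (1 / 2 : ℂ) • (C k (EuclideanSpace.single m 1) +
        I • C k (EuclideanSpace.single m I))) v k = C k v := by
    intro k
    rw [OmT75.expand (C k) v, Lm_apply, ← Finset.sum_add_distrib]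
    refine Finset.sum_congr rfl fun m _ => ?_
    simp only [Matrix.of_apply, smul_eq_mul]
    ring
  simp only [h1]
  rw [map_sum, ← Finset.sum_add_distrib]
  refine (OmT75.expand (Complex.ofRealCLM ∘L B v) w).trans (Finset.sum_congr rfl fun k _ => ?_)
  simp [hC, map_ofNat]
  ring

theorem Lm_symm {Pq R : Matrix (Fin q) (Fin q) ℂ} (hP : Pqᵀ = Pq) (hR : Rᴴ = R)
    (v w : Fin q → ℂ) : ∑ k, Lm Pq R v k * w k + conj (∑ k, Lm Pq R v k * w k) =
      ∑ k, Lm Pq R w k * v k + conj (∑ k, Lm Pq R w k * v k) := by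
  have h1 : ∑ k, (∑ m, Pq k m * v m) * w k = ∑ k, (∑ m, Pq k m * w m) * v k := by
    simp only [Finset.sum_mul]
    rw [Finset.sum_comm]
    refine Finset.sum_congr rfl fun k _ => Finset.sum_congr rfl fun m _ => ?_
    rw [show Pq m k = Pq k m from congrFun (congrFun hP k) m]
    ring
  have h2 : ∀ v w : Fin q → ℂ, conj (∑ k, (∑ m, R k m * conj (v m)) * w k) =
      ∑ k, (∑ m, R k m * conj (w m)) * v k := by
    intro v w
    simp only [Finset.sum_mul, map_sum, map_mul, conj_conj]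
    rw [Finset.sum_comm]
    refine Finset.sum_congr rfl fun k _ => Finset.sum_congr rfl fun m _ => ?_
    rw [show conj (R m k) = R k m from congrFun (congrFun hR k) m]
    ring
  simp only [Lm_apply, add_mul, Finset.sum_add_distrib, map_add]
  rw [h1, h2 v w, h2 w v]
  ring

variable {X : Type} [TopologicalSpace X] {A : Atl n X} {G : Type} [Group G]
  [T2Space X] [CompactSpace X] [Finite A.ι]

theorem heis_top (D : MonD A G) (P : Part A) (K : Kah A) {a : D.cov G → Cn q}
    (ha : HolF (D.atl G) a) {lam : G → Cn q} (hl : ∀ (g : G) e, a (g • e) = a e + lam g)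
    (B : Cn q →L[ℝ] Cn q →L[ℝ] ℝ) {β : G → ℝ}
    (hβ : ∀ g h, β (g * h) = β g + β h + B (lam g) (lam h)) {p : (D.atl G).ι} {z : Cn n}
    (hz : z ∈ ((D.atl G).e p).target)
    (hs : Function.Surjective (fderiv ℂ (fun z => a (((D.atl G).e p).symm z)) z)) (v w : Cn q) :
    B v w = B w v := by
  classical
  letI := Fintype.ofFinite A.ι
  obtain ⟨Pq, R, hB⟩ := exists_Lm B
  have hg : ∀ i j, ∃ g : G, ∀ x ∈ (A.e i).source ∩ (A.e j).source, g = (D.c i j x)⁻¹ := by
    intro i j
    by_cases h : ((A.e i).source ∩ (A.e j).source).Nonempty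
    · obtain ⟨y, hy⟩ := h
      exact ⟨_, fun x hx => by rw [D.c_loc i j x hx y hy]⟩
    · exact ⟨1, fun x hx => absurd ⟨x, hx⟩ h⟩
  choose g hg using hg
  set b : A.ι → X → Cn q := fun i x => a (D.pt i (1 : G) x) with hb
  have hbt : ∀ i j, ∀ x ∈ (A.e i).source ∩ (A.e j).source, b i x = b j x + lam (g i j) := by
    intro i j x hx
    simp only [hb]
    rw [← hl, D.deck_pt, hg i j x hx, inv_inv, one_mul, D.pt_eq (1 : G) hx.1 hx.2, smul_eq_mul,
      mul_one]
  have hbh : ∀ i k, DifferentiableOn ℂ (fun z => b i ((A.e i).symm z) k) (A.e i).target :=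
    fun i k => ha.clm (pj k) (i, 1)
  have hbs : ∀ i, A.SmAt i (b i) := fun i => ha.sm (i, 1)
  set f : A.ι → X → ℝ := fun i x =>
    ∑ k, P.ψ k x * (B (lam (g i k)) (b i x - lam (g i k)) + β (g i k)) with hf
  let H : HD A Pq R :=
    { a := fun i x => b i x
      f := fun i x => f i x
      asm := fun i k => (ha.clm (pj k)).sm (i, 1)
      hol := fun i x hx k c => Crest.Agent.R273.Levi_145.dbj_holo
        ((hbh i k).differentiableAt ((A.e i).open_target.mem_nhds ((A.e i).map_source hx))) c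
      fsm := fun i => smAt_ofReal (ContDiffOn.sum fun k _ => (P.ψ_sm k i).mul
        (((B (lam (g i k))).contDiff.comp_contDiffOn ((hbs i).sub contDiffOn_const)).add
          contDiffOn_const))
      real := fun i y => Complex.conj_ofReal _
      tr := fun i j => ⟨lam (g i j), β (g i j), fun y hy => ⟨by rw [hbt i j y hy]; rfl, by
        rw [← hB, ← Complex.ofReal_add, ← Complex.ofReal_add]
        congr 1
        have h1 : ∀ k, P.ψ k y * (B (lam (g i k)) (b i y - lam (g i k)) + β (g i k)) =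
            P.ψ k y * (B (lam (g j k)) (b j y - lam (g j k)) + β (g j k)) +
              P.ψ k y * (B (lam (g i j)) (b j y) + β (g i j)) := by
          intro k
          by_cases hk : y ∈ (A.e k).source
          · have h2 : g i k = g i j * g j k := by
              rw [hg i k y ⟨hy.1, hk⟩, hg i j y hy, hg j k y ⟨hy.2, hk⟩, ← mul_inv_rev,
                D.c_mul i j k y ⟨hy, hk⟩]
            have h3 := hbt i k y ⟨hy.1, hk⟩
            have h4 := hbt j k y ⟨hy.2, hk⟩
            have h5 : lam (g i k) = lam (g i j) + lam (g j k) := by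
              have h6 := hbt i j y hy
              rw [h3, h4, add_assoc, add_comm (lam (g j k))] at h6
              exact add_left_cancel h6
            rw [h3, h4, add_sub_cancel_right, add_sub_cancel_right, h5, h2, hβ]
            simp only [map_add, _root_.add_apply]
            ring
          · simp [ψ_zero P hk]
        simp only [hf, h1, Finset.sum_add_distrib, ← Finset.sum_mul, sum_ψ P y]
        ring⟩⟩ }
  obtain ⟨i, u⟩ := p
  have hx : (A.e i).symm z ∈ (A.e i).source := (A.e i).map_target hz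
  have e1 : (fun z => a (((D.atl G).e (i, u)).symm z)) =
      fun z => b i ((A.e i).symm z) + lam u⁻¹ := by
    funext z
    simp only [hb]
    rw [← hl, D.deck_pt, inv_inv, one_mul]
    rfl
  rw [e1, fderiv_add_const] at hs
  have hd : DifferentiableAt ℂ (fun z => b i ((A.e i).symm z)) z :=
    (ha (i, 1)).differentiableAt ((A.e i).open_target.mem_nhds hz)
  choose ψ hψ using fun k => hs (EuclideanSpace.single k 1)
  obtain ⟨hP, hR⟩ := H.symm P K hx (Ψ := Matrix.of fun c k => ψ k c) (by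
    ext k l
    have h1 : ∀ c, H.Φ i ((A.e i).symm z) k c =
        fderiv ℂ (fun z => b i ((A.e i).symm z)) z (EuclideanSpace.single c 1) k := by
      intro c
      refine (dl_hol (f := fun y => b i y k) (hbh i k) hx c).trans ?_
      rw [(A.e i).right_inv hz]
      exact congrArg (fun L => L (EuclideanSpace.single c 1))
        ((pj k).hasFDerivAt.comp z hd.hasFDerivAt).fderiv
    have h2 := congrArg (fun u : Cn q => u k) (hψ l)
    rw [clm_eq] at h2
    simp only [Matrix.mul_apply, h1, Matrix.of_apply, Matrix.one_apply]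
    simpa [Finset.sum_apply, mul_comm, Pi.single_apply] using h2)
  exact_mod_cast (hB v w).trans ((Lm_symm hP hR v w).trans (hB w v).symm)

/-- **no Heisenberg quotient** -/
theorem heis (D : MonD A G) (P : Part A) (K : Kah A) (H : Subgroup G) [H.FiniteIndex]
    {a : D.cov G → Cn q} (ha : HolF (D.atl G) a) {lam : H → Cn q}
    (hl : ∀ (h : H) e, a ((h : G) • e) = a e + lam h) (B : Cn q →L[ℝ] Cn q →L[ℝ] ℝ) {β : H → ℝ}
    (hβ : ∀ g h, β (g * h) = β g + β h + B (lam g) (lam h)) {p : (D.atl G).ι} {e : D.cov G}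
    (he : e ∈ ((D.atl G).e p).source)
    (hs : Function.Surjective
      (fderiv ℂ (fun z => a (((D.atl G).e p).symm z)) ((D.atl G).e p e))) (v w : Cn q) :
    B v w = B w v := by
  letI := Fintype.ofFinite (G ⧸ H)
  obtain ⟨i, u⟩ := p
  have hz := ((D.atl G).e (i, u)).map_source he
  have hu : (u : G ⧸ H).out⁻¹ * u ∈ H := QuotientGroup.eq.1 (QuotientGroup.out_eq' _)
  refine heis_top (D.sub H) (D.pullPart (G ⧸ H) P) (R273.RMan4_798.pullKah D (G ⧸ H) K)
    (a := fun e => a (D.ofSub H e)) (ha.comp (D.holMap_ofSub H))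
    (fun h e => by rw [D.ofSub_deck, hl]) B hβ (p := ((i, (u : G ⧸ H)), ⟨_, hu⟩)) hz ?_ v w
  have h1 : (fun z => a (D.ofSub H ((((D.sub H).atl H).e ((i, (u : G ⧸ H)), ⟨_, hu⟩)).symm z)))
      =ᶠ[𝓝 ((D.atl G).e (i, u) e)] fun z => a (((D.atl G).e (i, u)).symm z) := by
    filter_upwards [(A.e i).open_target.mem_nhds hz] with z hz
    have hx := (A.e i).map_target hz
    congr 1
    have h2 : D.co i (D.pt i (u : G ⧸ H) ((A.e i).symm z)) = u := D.co_pt _ hx
    have h3 : (D.sub H).co (i, (u : G ⧸ H)) ((D.sub H).pt (i, (u : G ⧸ H)) (⟨_, hu⟩ : H)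
        (D.pt i (u : G ⧸ H) ((A.e i).symm z))) = (⟨_, hu⟩ : H) :=
      (D.sub H).co_pt _ (D.pt_mem_source (p := (i, (u : G ⧸ H))) hx)
    refine (D.ofSub_eq H (i := i) (by exact hx)).trans ?_
    change D.pt i ((D.co i (D.pt i (u : G ⧸ H) ((A.e i).symm z))).out *
      ((D.sub H).co (i, D.co i (D.pt i (u : G ⧸ H) ((A.e i).symm z)))
        ((D.sub H).pt (i, (u : G ⧸ H)) (⟨_, hu⟩ : H)
          (D.pt i (u : G ⧸ H) ((A.e i).symm z))) : H)) ((A.e i).symm z) =
      D.pt i u ((A.e i).symm z)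
    rw [h2, h3, mul_inv_cancel_left]
  rw [h1.fderiv_eq]
  exact hs

end

end Crest.Agent.X261.Har
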