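import Mathlib

/-!
# X261, HAR (helper94), file Alg: pointwise linear algebra of the Bochner identity

* `ip h x y = star y ⬝ᵥ h *ᵥ x` : the Hermitian product of covectors;
* `Bq h S T = tr (h S) tr (h T) - tr (h S h T)`;
* `boch_re_le`, `boch_eq` : sign and vanishing of the Bochner integrand.
-/

set_option autoImplicit false

open Complex Matrix
open scoped ComplexConjugate ComplexOrder

namespace Crest.Agent.X261.Har

noncomputable section

variable {n : ℕ}

/-- Hermitian product of covectors -/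
def ip (h : Matrix (Fin n) (Fin n) ℂ) (x y : Fin n → ℂ) : ℂ := star y ⬝ᵥ h *ᵥ x

theorem ip_eq (h : Matrix (Fin n) (Fin n) ℂ) (x y : Fin n → ℂ) :
    ip h x y = ∑ a, ∑ b, h b a * x a * conj (y b) := by
  unfold ip
  simp only [dotProduct, Matrix.mulVec, Finset.mul_sum, Pi.star_apply]
  rw [Finset.sum_comm]
  refine Finset.sum_congr rfl fun a _ => Finset.sum_congr rfl fun b _ => ?_
  change conj (y b) * _ = _
  ring

theorem ip_add_left (h : Matrix (Fin n) (Fin n) ℂ) (x x' y : Fin n → ℂ) :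
    ip h (x + x') y = ip h x y + ip h x' y := by
  unfold ip; rw [Matrix.mulVec_add, dotProduct_add]

theorem ip_sub_left (h : Matrix (Fin n) (Fin n) ℂ) (x x' y : Fin n → ℂ) :
    ip h (x - x') y = ip h x y - ip h x' y := by
  unfold ip; rw [Matrix.mulVec_sub, dotProduct_sub]

theorem ip_smul_left (h : Matrix (Fin n) (Fin n) ℂ) (c : ℂ) (x y : Fin n → ℂ) :
    ip h (c • x) y = c * ip h x y := by
  unfold ip; rw [Matrix.mulVec_smul, dotProduct_smul, smul_eq_mul]

theorem ip_add_right (h : Matrix (Fin n) (Fin n) ℂ) (x y y' : Fin n → ℂ) :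
    ip h x (y + y') = ip h x y + ip h x y' := by
  unfold ip; rw [star_add, add_dotProduct]

theorem ip_sub_right (h : Matrix (Fin n) (Fin n) ℂ) (x y y' : Fin n → ℂ) :
    ip h x (y - y') = ip h x y - ip h x y' := by
  unfold ip; rw [star_sub, sub_dotProduct]

theorem ip_smul_right (h : Matrix (Fin n) (Fin n) ℂ) (c : ℂ) (x y : Fin n → ℂ) :
    ip h x (c • y) = conj c * ip h x y := by
  unfold ip; rw [star_smul, smul_dotProduct, smul_eq_mul]; rfl

theorem ip_smul_mat (h : Matrix (Fin n) (Fin n) ℂ) (c : ℂ) (x y : Fin n → ℂ) :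
    ip (c • h) x y = c * ip h x y := by
  unfold ip; rw [Matrix.smul_mulVec, dotProduct_smul, smul_eq_mul]

theorem ip_conj {h : Matrix (Fin n) (Fin n) ℂ} (hh : h.IsHermitian) (x y : Fin n → ℂ) :
    conj (ip h x y) = ip h y x := by
  rw [ip_eq, ip_eq, map_sum, Finset.sum_comm]
  refine Finset.sum_congr rfl fun a _ => ?_
  rw [map_sum]
  refine Finset.sum_congr rfl fun b _ => ?_
  rw [map_mul, map_mul, conj_conj]
  have := hh.apply a b
  change conj (h b a) = h a b at this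
  rw [this]
  ring

/-- the squared norm -/
def nq (h : Matrix (Fin n) (Fin n) ℂ) (x : Fin n → ℂ) : ℝ := (ip h x x).re

theorem ip_self {h : Matrix (Fin n) (Fin n) ℂ} (hh : h.IsHermitian) (x : Fin n → ℂ) :
    ip h x x = (nq h x : ℂ) := by
  have := ip_conj hh x x
  exact (Complex.conj_eq_iff_re.1 this).symm

theorem nq_nonneg {h : Matrix (Fin n) (Fin n) ℂ} (hh : h.PosDef) (x : Fin n → ℂ) :
    0 ≤ nq h x := (Complex.le_def.1 (hh.posSemidef.dotProduct_mulVec_nonneg x)).1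

theorem nq_pos {h : Matrix (Fin n) (Fin n) ℂ} (hh : h.PosDef) {x : Fin n → ℂ} (hx : x ≠ 0) :
    0 < nq h x := (Complex.pos_iff.1 (hh.dotProduct_mulVec_pos hx)).1

theorem eq_zero_of_nq {h : Matrix (Fin n) (Fin n) ℂ} (hh : h.PosDef) {x : Fin n → ℂ}
    (hx : nq h x = 0) : x = 0 := by
  by_contra h0
  exact (nq_pos hh h0).ne' hx

theorem nq_smul {h : Matrix (Fin n) (Fin n) ℂ} (hh : h.IsHermitian) (c : ℂ) (x : Fin n → ℂ) :
    nq h (c • x) = ‖c‖ ^ 2 * nq h x := by
  unfold nq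
  rw [ip_smul_left, ip_smul_right, ← mul_assoc, Complex.mul_conj, ip_self hh,
    Complex.normSq_eq_norm_sq]
  simp only [← Complex.ofReal_mul, Complex.ofReal_re]

theorem nq_add {h : Matrix (Fin n) (Fin n) ℂ} (hh : h.IsHermitian) (x y : Fin n → ℂ) :
    nq h (x + y) = nq h x + nq h y + 2 * (ip h x y).re := by
  unfold nq
  rw [ip_add_left, ip_add_right, ip_add_right, ← ip_conj hh x y]
  simp only [Complex.add_re, Complex.conj_re]
  ring

theorem nq_sub {h : Matrix (Fin n) (Fin n) ℂ} (hh : h.IsHermitian) (x y : Fin n → ℂ) :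
    nq h (x - y) = nq h x + nq h y - 2 * (ip h x y).re := by
  unfold nq
  rw [ip_sub_left, ip_sub_right, ip_sub_right, ← ip_conj hh x y]
  simp only [Complex.sub_re, Complex.conj_re]
  ring

theorem nq_add_le {h : Matrix (Fin n) (Fin n) ℂ} (hh : h.PosDef) (x y : Fin n → ℂ) :
    nq h (x + y) ≤ 2 * nq h x + 2 * nq h y := by
  have h1 := nq_add hh.1 x y
  have h2 := nq_sub hh.1 x y
  have h3 := nq_nonneg hh (x - y)
  linarith

/-- the Gram defect -/
theorem nq_gram {h : Matrix (Fin n) (Fin n) ℂ} (hh : h.IsHermitian) (x y : Fin n → ℂ) :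
    nq h ((nq h y : ℂ) • x - ip h x y • y) =
      nq h y * (nq h x * nq h y - ‖ip h x y‖ ^ 2) := by
  rw [nq_sub hh, nq_smul hh, nq_smul hh, ip_smul_left, ip_smul_right, mul_comm (conj _),
    Complex.mul_conj, Complex.normSq_eq_norm_sq, Complex.norm_real, Real.norm_eq_abs, sq_abs,
    ← Complex.ofReal_mul, Complex.ofReal_re]
  ring

theorem cs_le {h : Matrix (Fin n) (Fin n) ℂ} (hh : h.PosDef) (x y : Fin n → ℂ) :
    ‖ip h x y‖ ^ 2 ≤ nq h x * nq h y := by
  by_cases hy : y = 0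
  · subst hy
    have : ip h x 0 = 0 := by unfold ip; simp
    rw [this]
    have h2 : nq h (0 : Fin n → ℂ) = 0 := by unfold nq ip; simp
    simp [h2]
  · have h1 := nq_nonneg hh ((nq h y : ℂ) • x - ip h x y • y)
    rw [nq_gram hh.1] at h1
    have := nonneg_of_mul_nonneg_right (by rwa [mul_comm] at h1) (nq_pos hh hy)
    linarith

theorem cs_eq {h : Matrix (Fin n) (Fin n) ℂ} (hh : h.PosDef) {x y : Fin n → ℂ}
    (he : ‖ip h x y‖ ^ 2 = nq h x * nq h y) (a b : Fin n) : y a * x b = y b * x a := by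
  by_cases hy : y = 0
  · subst hy; simp
  · have h1 := nq_gram hh.1 x y
    rw [he, sub_self, mul_zero] at h1
    have h2 := eq_zero_of_nq hh h1
    have h3 : (nq h y : ℂ) ≠ 0 := by exact_mod_cast (nq_pos hh hy).ne'
    have ha := congrFun h2 a
    have hb := congrFun h2 b
    simp only [Pi.sub_apply, Pi.smul_apply, smul_eq_mul, Pi.zero_apply] at ha hb
    apply mul_left_cancel₀ h3
    linear_combination y a * hb - y b * ha

/-! ### the quadratic form on `(1,1)` tensors -/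

/-- `S ∧ T ∧ ω^{n-2}` up to the volume form -/
def Bq (h S T : Matrix (Fin n) (Fin n) ℂ) : ℂ :=
  (h * S).trace * (h * T).trace - (h * S * h * T).trace

theorem Bq_comm (h S T : Matrix (Fin n) (Fin n) ℂ) : Bq h S T = Bq h T S := by
  unfold Bq
  rw [mul_comm (h * S).trace, show h * S * h * T = (h * S) * (h * T) by simp only [Matrix.mul_assoc],
    Matrix.trace_mul_comm (h * S) (h * T),
    show h * T * h * S = (h * T) * (h * S) by simp only [Matrix.mul_assoc]]

theorem Bq_add_left (h S S' T : Matrix (Fin n) (Fin n) ℂ) :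
    Bq h (S + S') T = Bq h S T + Bq h S' T := by
  unfold Bq
  simp only [Matrix.mul_add, Matrix.add_mul, Matrix.trace_add]
  ring

theorem Bq_sub_left (h S S' T : Matrix (Fin n) (Fin n) ℂ) :
    Bq h (S - S') T = Bq h S T - Bq h S' T := by
  unfold Bq
  simp only [Matrix.mul_sub, Matrix.sub_mul, Matrix.trace_sub]
  ring

theorem Bq_add_right (h S T T' : Matrix (Fin n) (Fin n) ℂ) :
    Bq h S (T + T') = Bq h S T + Bq h S T' := by
  rw [Bq_comm, Bq_add_left, Bq_comm h T, Bq_comm h T']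

theorem Bq_sub_right (h S T T' : Matrix (Fin n) (Fin n) ℂ) :
    Bq h S (T - T') = Bq h S T - Bq h S T' := by
  rw [Bq_comm, Bq_sub_left, Bq_comm h T, Bq_comm h T']

theorem Bq_smul_right (h S T : Matrix (Fin n) (Fin n) ℂ) (c : ℂ) :
    Bq h S (c • T) = c * Bq h S T := by
  unfold Bq
  simp only [Matrix.mul_smul, Matrix.trace_smul, smul_eq_mul]
  ring

theorem trace_vv (h : Matrix (Fin n) (Fin n) ℂ) (x y : Fin n → ℂ) :
    (h * vecMulVec x y).trace = y ⬝ᵥ h *ᵥ x := by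
  rw [Matrix.mul_vecMulVec, Matrix.trace_vecMulVec, dotProduct_comm]

theorem trace_vv_ip (h : Matrix (Fin n) (Fin n) ℂ) (x y : Fin n → ℂ) :
    (h * vecMulVec x (star y)).trace = ip h x y := trace_vv h x _

theorem Bq_vv (h : Matrix (Fin n) (Fin n) ℂ) (x y x' y' : Fin n → ℂ) :
    Bq h (vecMulVec x (star y)) (vecMulVec x' (star y')) =
      ip h x y * ip h x' y' - ip h x' y * ip h x y' := by
  unfold Bq
  rw [trace_vv_ip, trace_vv_ip]
  congr 1
  rw [show h * vecMulVec x (star y) * h * vecMulVec x' (star y') =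
      (h * vecMulVec x (star y)) * (h * vecMulVec x' (star y')) by simp only [Matrix.mul_assoc],
    Matrix.mul_vecMulVec, Matrix.mul_vecMulVec, Matrix.vecMulVec_mul_vecMulVec,
    Matrix.trace_vecMulVec, dotProduct_smul, smul_eq_mul, dotProduct_comm (h *ᵥ x)]
  rfl

theorem vv_conjT (x y : Fin n → ℂ) : (vecMulVec x (star y))ᴴ = vecMulVec y (star x) := by
  ext a b
  simp [Matrix.conjTranspose_apply, vecMulVec_apply, mul_comm]

theorem trace_conjT {h : Matrix (Fin n) (Fin n) ℂ} (hh : h.IsHermitian)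
    (S : Matrix (Fin n) (Fin n) ℂ) : (h * Sᴴ).trace = conj (h * S).trace := by
  have h2 := Matrix.trace_conjTranspose (h * S)
  rw [Matrix.conjTranspose_mul, hh.eq, Matrix.trace_mul_comm] at h2
  exact h2

open scoped MatrixOrder in
theorem exists_sqrt {S : Matrix (Fin n) (Fin n) ℂ} (hS : S.PosSemidef) :
    ∃ B : Matrix (Fin n) (Fin n) ℂ, S = Bᴴ * B := by
  obtain ⟨B, hB⟩ := CStarAlgebra.nonneg_iff_eq_star_mul_self.mp hS.nonneg
  exact ⟨B, by rw [hB, Matrix.star_eq_conjTranspose]⟩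

theorem hs_nonneg {h : Matrix (Fin n) (Fin n) ℂ} (hh : h.PosDef) (Q : Matrix (Fin n) (Fin n) ℂ) :
    0 ≤ (h * Qᴴ * h * Q).trace ∧ ((h * Qᴴ * h * Q).trace = 0 → Q = 0) := by
  obtain ⟨B, hB⟩ := exists_sqrt hh.posSemidef
  have e : (h * Qᴴ * h * Q).trace = ((B * Q * Bᴴ)ᴴ * (B * Q * Bᴴ)).trace := by
    rw [hB]
    simp only [Matrix.conjTranspose_mul, Matrix.conjTranspose_conjTranspose]
    rw [show Bᴴ * B * Qᴴ * (Bᴴ * B) * Q = Bᴴ * (B * Qᴴ * (Bᴴ * B) * Q) by
      simp only [Matrix.mul_assoc], Matrix.trace_mul_comm]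
    simp only [Matrix.mul_assoc]
  rw [e]
  refine ⟨(Matrix.posSemidef_conjTranspose_mul_self _).trace_nonneg, fun h0 => ?_⟩
  have h1 := Matrix.trace_conjTranspose_mul_self_eq_zero_iff.1 h0
  have hd : B.det ≠ 0 := by
    intro hb
    have := hh.det_pos.ne'
    rw [hB, Matrix.det_mul, hb, mul_zero] at this
    exact this rfl
  have hu : IsUnit B.det := isUnit_iff_ne_zero.2 hd
  have hu' : IsUnit Bᴴ.det := by
    rw [Matrix.det_conjTranspose]
    exact hu.star
  have h2 : Q = B⁻¹ * (B * Q * Bᴴ) * Bᴴ⁻¹ := by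
    rw [show B⁻¹ * (B * Q * Bᴴ) * Bᴴ⁻¹ = (B⁻¹ * B) * Q * (Bᴴ * Bᴴ⁻¹) by
      simp only [Matrix.mul_assoc], Matrix.nonsing_inv_mul _ hu, Matrix.mul_nonsing_inv _ hu',
      Matrix.one_mul, Matrix.mul_one]
  rw [h2, h1, Matrix.mul_zero, Matrix.zero_mul]

/-- the Bochner integrand : `Am = ∂∂̄v`, `t = ∂u`, `q = ∂v`, `p = ∂ v̄` -/
def boch (h Am : Matrix (Fin n) (Fin n) ℂ) (t q p : Fin n → ℂ) : ℂ :=
  Bq h (Am - (2 : ℂ) • vecMulVec t (star p))ᴴ (Am - (2 : ℂ) • vecMulVec t (star p)) +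
    Bq h (Am - (2 : ℂ) • vecMulVec q (star t)) (Am - (2 : ℂ) • vecMulVec q (star t))ᴴ

/-- the Euler-Lagrange tensor -/
def Qm (Am : Matrix (Fin n) (Fin n) ℂ) (t q p : Fin n → ℂ) : Matrix (Fin n) (Fin n) ℂ :=
  Am - vecMulVec t (star p) - vecMulVec q (star t)

theorem boch_expand {h : Matrix (Fin n) (Fin n) ℂ} (hh : h.IsHermitian)
    (Am : Matrix (Fin n) (Fin n) ℂ) (t q p : Fin n → ℂ) (hE : (h * Qm Am t q p).trace = 0) :
    boch h Am t q p = - 2 * ((h * (Qm Am t q p)ᴴ * h * Qm Am t q p).trace +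
      ((nq h p * nq h t - ‖ip h p t‖ ^ 2 : ℝ) : ℂ) +
      ((nq h q * nq h t - ‖ip h q t‖ ^ 2 : ℝ) : ℂ)) := by
  set Q := Qm Am t q p with hQ
  set a := vecMulVec t (star p) with ha
  set b := vecMulVec q (star t) with hb
  have e1 : Am - (2 : ℂ) • a = Q - (a - b) := by
    rw [hQ, Qm, two_smul]; abel
  have e2 : Am - (2 : ℂ) • b = Q + (a - b) := by
    rw [hQ, Qm, two_smul]; abel
  have e3 : boch h Am t q p = 2 * Bq h Qᴴ Q + 2 * Bq h (a - b)ᴴ (a - b) := by
    unfold boch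
    rw [← ha, ← hb, e1, e2, Matrix.conjTranspose_sub Q, Matrix.conjTranspose_add Q,
      Bq_comm h (Q + (a - b))]
    simp only [Bq_sub_left h Qᴴ, Bq_add_left h Qᴴ, Bq_sub_right h _ Q, Bq_add_right h _ Q]
    ring
  have e4 : Bq h Qᴴ Q = - (h * Qᴴ * h * Q).trace := by
    unfold Bq
    rw [hE, mul_zero, zero_sub]
  have e5 : Bq h (a - b)ᴴ (a - b) =
      - (((nq h p * nq h t - ‖ip h p t‖ ^ 2 : ℝ) : ℂ) +
        ((nq h q * nq h t - ‖ip h q t‖ ^ 2 : ℝ) : ℂ)) := by
    rw [Matrix.conjTranspose_sub, ha, hb, vv_conjT, vv_conjT]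
    simp only [Bq_sub_left, Bq_sub_right, Bq_vv]
    rw [ip_self hh t, ip_self hh p, ip_self hh q, ← ip_conj hh p t, ← ip_conj hh q t]
    have k1 := Complex.mul_conj (ip h p t)
    have k2 := Complex.mul_conj (ip h q t)
    rw [Complex.normSq_eq_norm_sq] at k1 k2
    push_cast at k1 k2 ⊢
    linear_combination k1 + k2
  rw [e3, e4, e5]
  ring

theorem boch_re_le {h : Matrix (Fin n) (Fin n) ℂ} (hh : h.PosDef)
    (Am : Matrix (Fin n) (Fin n) ℂ) (t q p : Fin n → ℂ) (hE : (h * Qm Am t q p).trace = 0) :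
    (boch h Am t q p).re ≤ 0 := by
  rw [boch_expand hh.1 Am t q p hE]
  have h1 := (Complex.le_def.1 (hs_nonneg hh (Qm Am t q p)).1).1
  have h2 := cs_le hh p t
  have h3 := cs_le hh q t
  simp only [Complex.mul_re, Complex.add_re, Complex.ofReal_re, Complex.neg_re, Complex.neg_im,
    Complex.re_ofNat, Complex.im_ofNat, neg_zero, zero_mul, sub_zero, Complex.zero_re] at h1 ⊢
  linarith

theorem boch_eq {h : Matrix (Fin n) (Fin n) ℂ} (hh : h.PosDef)
    (Am : Matrix (Fin n) (Fin n) ℂ) (t q p : Fin n → ℂ) (hE : (h * Qm Am t q p).trace = 0)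
    (h0 : (boch h Am t q p).re = 0) :
    Qm Am t q p = 0 ∧ (∀ a b, t a * q b = t b * q a) ∧ ∀ a b, t a * p b = t b * p a := by
  rw [boch_expand hh.1 Am t q p hE] at h0
  have h1 := Complex.le_def.1 (hs_nonneg hh (Qm Am t q p)).1
  have h2 := cs_le hh p t
  have h3 := cs_le hh q t
  simp only [Complex.mul_re, Complex.add_re, Complex.ofReal_re, Complex.neg_re, Complex.neg_im,
    Complex.re_ofNat, Complex.im_ofNat, neg_zero, zero_mul, sub_zero, Complex.zero_re,
    Complex.zero_im] at h1 h0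
  refine ⟨(hs_nonneg hh _).2 (Complex.ext ?_ h1.2.symm), cs_eq hh (by linarith [h1.1]),
    cs_eq hh (by linarith [h1.1])⟩
  rw [Complex.zero_re]
  linarith [h1.1]

/-! ### Kato type inequalities -/

/-- `p = e^{-u} ∂w`, `q = e^{-u} ∂ w̄`, `s = e^{-u} w`, `d = ∂ |s|²` -/
theorem kato {h : Matrix (Fin n) (Fin n) ℂ} (hh : h.PosDef) (s : ℂ) (t p q : Fin n → ℂ) :
    nq h (conj s • p + s • q - ((2 * ‖s‖ ^ 2 : ℝ) : ℂ) • t) ≤ 2 * ‖s‖ ^ 2 *
      (nq h p + nq h q - 2 * ‖s‖ ^ 2 * nq h t -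
        2 * (ip h (conj s • p + s • q - ((2 * ‖s‖ ^ 2 : ℝ) : ℂ) • t) t).re) ∧
    2 * ‖s‖ ^ 2 * nq h t +
      2 * (ip h (conj s • p + s • q - ((2 * ‖s‖ ^ 2 : ℝ) : ℂ) • t) t).re ≤ nq h p + nq h q := by
  have k : s * conj s = ((‖s‖ ^ 2 : ℝ) : ℂ) := by
    rw [Complex.mul_conj, Complex.normSq_eq_norm_sq]
  have e1 : conj s • p + s • q - ((2 * ‖s‖ ^ 2 : ℝ) : ℂ) • t =
      conj s • (p - s • t) + s • (q - conj s • t) := by
    funext a
    simp only [Pi.add_apply, Pi.sub_apply, Pi.smul_apply, smul_eq_mul]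
    push_cast at k ⊢
    linear_combination (2 * t a) * k
  have e2 : nq h (p - s • t) + nq h (q - conj s • t) = nq h p + nq h q - 2 * ‖s‖ ^ 2 * nq h t -
        2 * (ip h (conj s • p + s • q - ((2 * ‖s‖ ^ 2 : ℝ) : ℂ) • t) t).re := by
    rw [nq_sub hh.1, nq_sub hh.1, nq_smul hh.1, nq_smul hh.1, ip_sub_left, ip_add_left,
      ip_smul_left, ip_smul_left, ip_smul_left, ip_smul_right, ip_smul_right, conj_conj,
      ip_self hh.1 t, Complex.norm_conj, ← Complex.ofReal_mul]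
    simp only [Complex.sub_re, Complex.add_re, Complex.ofReal_re]
    ring
  have h1 := nq_nonneg hh (p - s • t)
  have h2 := nq_nonneg hh (q - conj s • t)
  refine ⟨?_, by linarith⟩
  rw [← e2]
  conv_lhs => rw [e1]
  refine (nq_add_le hh _ _).trans_eq ?_
  rw [nq_smul hh.1, nq_smul hh.1, Complex.norm_conj]
  ring

end

end Crest.Agent.X261.Har
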