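import Crest.Agent.X261.Har.Stk

/-!
# X261, HAR (helper94), file Boch: the Bochner identity for twisted harmonic functions

* `Wt A`      : local pluriharmonic weights `u i`, differing by constants;
* `Aff A c v` : `v i = c i j * v j + const` locally on the overlaps; `SecC A c w` : `w i = c i j * w j`;
* `bochner`   : if `div (e^{-2u} ∇ v) = 0` then `Q = 0`, `θ ∧ ∂v = 0`, `θ ∧ ∂ v̄ = 0`;
* `dn_zero`   : a density with a sign and integral zero vanishes.
-/

set_option autoImplicit false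
set_option linter.unusedSectionVars false

open Set Filter Topology Complex MeasureTheory
open scoped ContDiff Matrix ComplexConjugate ComplexOrder

namespace Crest.Agent.X261.Har

open Crest.Agent.R275 Crest.Agent.R275.Geo Crest.Agent.R275.Core144 Crest.Agent.R275.EDR890
open Crest.Agent.R275.SerG398 (dens)
open Crest.Agent.R275.C1d194 (smAt_ofReal)
open Crest.Agent.R275.OmT75 (dj dl db_chain)
open Crest.Agent.R273.Kah_333 Crest.Agent.R273.Vol_333 Crest.Agent.R273.Vm_333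
open Crest.Agent.R273.StV_37 Crest.Agent.R273.Green_5
open Crest.Agent.R273.VolInv_5 Crest.Agent.R273.GreenM_5

noncomputable section

variable {n : ℕ} {M : Type} [TopologicalSpace M] {A : Atl n M}

/-- local pluriharmonic weights -/
structure Wt (A : Atl n M) where
  u : A.ι → M → ℝ
  sm : ∀ i, A.SmAt i (u i)
  tr : ∀ i j, ∃ k : ℝ, ∀ x ∈ (A.e i).source ∩ (A.e j).source, u i x = u j x + k
  ph : ∀ i, ∀ x ∈ (A.e i).source, hm A (fun y => (u i y : ℂ)) i x = 0

/-- affine families -/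
structure Aff (A : Atl n M) (c : A.ι → A.ι → ℂ) (v : A.ι → M → ℂ) : Prop where
  sm : ∀ i, A.SmAt i (v i)
  tr : ∀ i j, ∀ x ∈ (A.e i).source ∩ (A.e j).source, ∃ b : ℂ,
    ∀ᶠ y in 𝓝 x, v i y = c i j * v j y + b

/-- sections -/
structure SecC (A : Atl n M) (c : A.ι → A.ι → ℂ) (w : A.ι → M → ℂ) : Prop where
  sm : ∀ i, A.SmAt i (w i)
  tr : ∀ i j, ∀ x ∈ (A.e i).source ∩ (A.e j).source, w i x = c i j * w j x

variable {c c' : A.ι → A.ι → ℂ} {v v' w : A.ι → M → ℂ}

theorem ov_nhds {i j : A.ι} {x : M} (hx : x ∈ (A.e i).source ∩ (A.e j).source) :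
    (A.e i).source ∩ (A.e j).source ∈ 𝓝 x :=
  ((A.e i).open_source.inter (A.e j).open_source).mem_nhds hx

theorem aff_of (hs : ∀ i, A.SmAt i (v i))
    (h : ∀ i j, ∃ b : ℂ, ∀ x ∈ (A.e i).source ∩ (A.e j).source, v i x = c i j * v j x + b) :
    Aff A c v := by
  refine ⟨hs, fun i j x hx => ?_⟩
  obtain ⟨b, hb⟩ := h i j
  exact ⟨b, by filter_upwards [ov_nhds hx] with y hy using hb y hy⟩

theorem SecC.aff (h : SecC A c w) : Aff A c w :=
  aff_of h.sm fun i j => ⟨0, fun x hx => by rw [h.tr i j x hx, add_zero]⟩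

theorem Aff.cj (h : Aff A c v) :
    Aff A (fun i j => conj (c i j)) (fun i y => conj (v i y)) := by
  refine ⟨fun i => smAt_conj (h.sm i), fun i j x hx => ?_⟩
  obtain ⟨b, hb⟩ := h.tr i j x hx
  exact ⟨conj b, by filter_upwards [hb] with y hy; rw [hy, map_add, map_mul]⟩

theorem SecC.cj (h : SecC A c w) :
    SecC A (fun i j => conj (c i j)) (fun i y => conj (w i y)) :=
  ⟨fun i => smAt_conj (h.sm i), fun i j x hx => by rw [h.tr i j x hx, map_mul]⟩

theorem Aff.add (h : Aff A c v) (h' : Aff A c v') : Aff A c (fun i y => v i y + v' i y) := by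
  refine ⟨fun i => (h.sm i).add (h'.sm i), fun i j x hx => ?_⟩
  obtain ⟨b, hb⟩ := h.tr i j x hx
  obtain ⟨b', hb'⟩ := h'.tr i j x hx
  exact ⟨b + b', by filter_upwards [hb, hb'] with y hy hy'; rw [hy, hy']; ring⟩

/-- `∂ v` -/
def dv (A : Atl n M) (v : A.ι → M → ℂ) (i : A.ι) (x : M) : Fin n → ℂ := fun a => dl A i a (v i) x

/-- `∂ v̄` -/
def pv (A : Atl n M) (v : A.ι → M → ℂ) (i : A.ι) (x : M) : Fin n → ℂ :=
  fun a => dl A i a (fun y => conj (v i y)) x

/-- `∂∂̄ v` -/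
def Hv (A : Atl n M) (v : A.ι → M → ℂ) (i : A.ι) (x : M) : Matrix (Fin n) (Fin n) ℂ :=
  hm A (v i) i x

theorem star_pv (v : A.ι → M → ℂ) (i : A.ι) (x : M) (b : Fin n) :
    star (pv A v i x) b = A.db i b (v i) x := (db_eq_conj i b (v i) x).symm

theorem pv_cj (v : A.ι → M → ℂ) : pv A (fun i y => conj (v i y)) = dv A v := by
  funext i x a
  simp only [pv, dv, conj_conj]

theorem dv_cj (v : A.ι → M → ℂ) : dv A (fun i y => conj (v i y)) = pv A v := rfl

theorem Aff.c10 (h : Aff A c v) : C10 A (fun i j _ => c i j) (dv A v) := by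
  intro i j x hx
  obtain ⟨b, hb⟩ := h.tr i j x hx
  have h1 : v i =ᶠ[𝓝 x] fun y => c i j * v j y + b := hb
  have hd := da_ov hx (da_of (h.sm j) hx.2)
  funext a
  change dl A i a (v i) x = c i j * ∑ d, A.J i j x d a * dl A j d (v j) x
  rw [dl_congr hx.1 h1, dl_add ((da_const _).mul hd) (da_const _), dl_cmul _ hd, dl_cst,
    add_zero, dlc (da_of (h.sm j) hx.2) hx]

theorem Aff.c01 (h : Aff A c v) :
    C01 A (fun i j _ => c i j) (fun i x => star (pv A v i x)) := by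
  have := h.cj.c10.cj
  simpa only [conj_conj, dv_cj] using this

theorem Hv_eq (v : A.ι → M → ℂ) : Hv A v = Tm A (fun i x => star (pv A v i x)) := by
  funext i x
  ext a b
  rw [Tm_apply]
  simp only [star_pv]
  rfl

theorem smAt_dv (h : ∀ i, A.SmAt i (v i)) (i : A.ι) (a : Fin n) :
    A.SmAt i (fun y => dv A v i y a) := smAt_dl (h i) a

theorem smAt_pv (h : ∀ i, A.SmAt i (v i)) (i : A.ι) (a : Fin n) :
    A.SmAt i (fun y => pv A v i y a) := smAt_dl (smAt_conj (h i)) a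

theorem smAt_spv (h : ∀ i, A.SmAt i (v i)) (i : A.ι) (a : Fin n) :
    A.SmAt i (fun y => star (pv A v i y) a) := smAt_conj (smAt_pv h i a)

theorem smAt_Hv (h : ∀ i, A.SmAt i (v i)) (i : A.ι) (a b : Fin n) :
    A.SmAt i (fun y => Hv A v i y a b) := smAt_hm (h i) a b

theorem Aff.tnF (h : Aff A c v) : TnF A (fun i j _ => c i j) (Hv A v) := by
  rw [Hv_eq]
  exact tnF_Tm (smAt_spv h.sm) h.c01

theorem Hv_cj (h : ∀ i, A.SmAt i (v i)) {i : A.ι} {x : M} (hx : x ∈ (A.e i).source) :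
    Hv A (fun i y => conj (v i y)) i x = (Hv A v i x)ᴴ := hm_conj (h i) hx

namespace Wt

variable (W : Wt A)

/-- the weights as complex functions -/
def uc (i : A.ι) (x : M) : ℂ := (W.u i x : ℂ)

/-- `θ = ∂ u` -/
def th : A.ι → M → Fin n → ℂ := dv A W.uc

/-- `e^{-2u}` -/
def wt (i : A.ι) (x : M) : ℂ := ((Real.exp (-2 * W.u i x) : ℝ) : ℂ)

theorem aff : Aff A (fun _ _ => 1) W.uc := by
  refine aff_of (fun i => smAt_ofReal (W.sm i)) fun i j => ?_
  obtain ⟨k, hk⟩ := W.tr i j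
  exact ⟨k, fun x hx => by simp only [uc, hk x hx, Complex.ofReal_add, one_mul]⟩

theorem pv_uc : pv A W.uc = W.th := by
  funext i x a
  simp only [pv, th, dv, uc, Complex.conj_ofReal]
  rfl

theorem smAt_th (i : A.ι) (a : Fin n) : A.SmAt i (fun y => W.th i y a) := smAt_dv W.aff.sm i a

theorem smAt_wt (i : A.ι) : A.SmAt i (W.wt i) :=
  smAt_ofReal (Real.contDiff_exp.comp_contDiffOn (contDiffOn_const.mul (W.sm i)))

theorem conj_wt (i : A.ι) (x : M) : conj (W.wt i x) = W.wt i x := Complex.conj_ofReal _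

theorem wt_ne (i : A.ι) (x : M) : W.wt i x ≠ 0 := by
  unfold wt
  exact_mod_cast (Real.exp_pos _).ne'

theorem wt_eq (i : A.ι) (x : M) : W.wt i x = Complex.exp (-2 * W.uc i x) := by
  unfold wt uc
  push_cast
  rfl

theorem dl_wt {i : A.ι} {x : M} (hx : x ∈ (A.e i).source) (a : Fin n) :
    dl A i a (W.wt i) x = -2 * W.wt i x * W.th i x a := by
  have hd : DA A i (W.uc i) x := da_of (W.aff.sm i) hx
  have h1 : W.wt i = fun y => Complex.exp (-2 * W.uc i y) := funext (W.wt_eq i)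
  have h2 : HasFDerivAt (fun z => Complex.exp (-2 * W.uc i ((A.e i).symm z)))
      (Complex.exp (-2 * W.uc i ((A.e i).symm (A.e i x))) •
        ((-2 : ℂ) • fderiv ℝ (fun z => W.uc i ((A.e i).symm z)) (A.e i x))) (A.e i x) :=
    (hd.hasFDerivAt.const_mul (-2)).cexp
  rw [(A.e i).left_inv hx] at h2
  rw [h1]
  unfold th dv OmT75.dl
  rw [dj_eq_wd, dj_eq_wd, wd, wd, h2.fderiv, wdL_smul, wdL_smul, smul_eq_mul, smul_eq_mul]
  ring

theorem exists_k : ∃ κ : A.ι → A.ι → ℂ,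
    ∀ i j, ∀ x ∈ (A.e i).source ∩ (A.e j).source, W.wt i x = κ i j * W.wt j x := by
  choose k hk using W.tr
  refine ⟨fun i j => ((Real.exp (-2 * k i j) : ℝ) : ℂ), fun i j x hx => ?_⟩
  unfold wt
  rw [hk i j x hx, ← Complex.ofReal_mul, ← Real.exp_add]
  congr 2
  ring

/-- compatibility of the weights with the factors -/
def Cmp (c c' : A.ι → A.ι → ℂ) : Prop :=
  ∀ i j, ∀ x ∈ (A.e i).source ∩ (A.e j).source, W.wt i x * (c i j * c' i j) = W.wt j x

theorem Cmp.symm {W : Wt A} (h : W.Cmp c c') : W.Cmp c' c := fun i j x hx => by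
  rw [mul_comm (c' i j)]; exact h i j x hx

/-- `∂∂̄v - 2 θ ∧ ∂̄v` -/
def M1 (v : A.ι → M → ℂ) (i : A.ι) (x : M) : Matrix (Fin n) (Fin n) ℂ :=
  Hv A v i x - (2 : ℂ) • Matrix.vecMulVec (W.th i x) (star (pv A v i x))

/-- `∂∂̄v - 2 ∂v ∧ θ̄` -/
def M2 (v : A.ι → M → ℂ) (i : A.ι) (x : M) : Matrix (Fin n) (Fin n) ℂ :=
  Hv A v i x - (2 : ℂ) • Matrix.vecMulVec (dv A v i x) (star (W.th i x))

/-- the Euler-Lagrange tensor -/
def Q (v : A.ι → M → ℂ) (i : A.ι) (x : M) : Matrix (Fin n) (Fin n) ℂ :=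
  Qm (Hv A v i x) (W.th i x) (dv A v i x) (pv A v i x)

/-- `e^{-2u} ∂̄ v` -/
def be (v : A.ι → M → ℂ) (i : A.ι) (x : M) : Fin n → ℂ := W.wt i x • star (pv A v i x)

theorem two_Q (v : A.ι → M → ℂ) (i : A.ι) (x : M) :
    (2 : ℂ) • W.Q v i x = W.M1 v i x + W.M2 v i x := by
  unfold Q Qm M1 M2
  simp only [two_smul]
  abel

theorem M2_cj (h : ∀ i, A.SmAt i (v i)) {i : A.ι} {x : M} (hx : x ∈ (A.e i).source) :
    W.M2 (fun i y => conj (v i y)) i x = (W.M1 v i x)ᴴ := by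
  unfold M1 M2
  rw [Hv_cj h hx, dv_cj, Matrix.conjTranspose_sub, Matrix.conjTranspose_smul, vv_conjT]
  simp

theorem M1_cj (h : ∀ i, A.SmAt i (v i)) {i : A.ι} {x : M} (hx : x ∈ (A.e i).source) :
    W.M1 (fun i y => conj (v i y)) i x = (W.M2 v i x)ᴴ := by
  unfold M1 M2
  rw [Hv_cj h hx, pv_cj, Matrix.conjTranspose_sub, Matrix.conjTranspose_smul, vv_conjT]
  simp

theorem smAt_be (h : ∀ i, A.SmAt i (v i)) (i : A.ι) (a : Fin n) :
    A.SmAt i (fun y => W.be v i y a) := (W.smAt_wt i).mul (smAt_spv h i a)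

theorem smAt_M1 (h : ∀ i, A.SmAt i (v i)) (i : A.ι) (a b : Fin n) :
    A.SmAt i (fun y => W.M1 v i y a b) :=
  (smAt_Hv h i a b).sub (contDiffOn_const.mul ((W.smAt_th i a).mul (smAt_spv h i b)))

theorem smAt_M2 (h : ∀ i, A.SmAt i (v i)) (i : A.ι) (a b : Fin n) :
    A.SmAt i (fun y => W.M2 v i y a b) :=
  (smAt_Hv h i a b).sub
    (contDiffOn_const.mul ((smAt_dv h i a).mul (smAt_conj (W.smAt_th i b))))

theorem smAt_Q (h : ∀ i, A.SmAt i (v i)) (i : A.ι) (a b : Fin n) :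
    A.SmAt i (fun y => W.Q v i y a b) :=
  ((smAt_Hv h i a b).sub ((W.smAt_th i a).mul (smAt_spv h i b))).sub
    ((smAt_dv h i a).mul (smAt_conj (W.smAt_th i b)))

theorem Tm_be (h : ∀ i, A.SmAt i (v i)) {i : A.ι} {x : M} (hx : x ∈ (A.e i).source) :
    Tm A (W.be v) i x = W.wt i x • W.M1 v i x := by
  ext a b
  have h1 : Tm A (W.be v) i x a b =
      dl A i a (fun y => W.wt i y * star (pv A v i y) b) x := rfl
  rw [h1, dlm (da_of (W.smAt_wt i) hx) (da_of (smAt_spv h i b) hx) hx, W.dl_wt hx]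
  have h2 : dl A i a (fun y => star (pv A v i y) b) x = Hv A v i x a b := by rw [Hv_eq]; rfl
  rw [h2]
  simp only [M1, Matrix.smul_apply, Matrix.sub_apply, Matrix.vecMulVec_apply, smul_eq_mul]
  ring

theorem c01_be {κ : A.ι → A.ι → ℂ}
    (hκ : ∀ i j, ∀ x ∈ (A.e i).source ∩ (A.e j).source, W.wt i x = κ i j * W.wt j x)
    (h : Aff A c v) : C01 A (fun i j _ => κ i j * c i j) (W.be v) := by
  intro i j x hx
  unfold be
  have h1 : star (pv A v i x) = _ := h.c01 i j x hx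
  rw [h1, hκ i j x hx, Matrix.mulVec_smul, smul_smul, smul_smul]
  congr 1
  ring

theorem tnF_M2 (h : Aff A c v) : TnF A (fun i j _ => c i j) (W.M2 v) := by
  have h1 := (tnF_vv h.c10 W.aff.c10.cj).congr (m := fun i j _ => c i j) fun i j x _ => by simp
  exact h.tnF.sub (h1.smul 2)

theorem tnF_M1 (h : Aff A c v) : TnF A (fun i j _ => c i j) (W.M1 v) := by
  have h1 := (tnF_vv W.aff.c10 h.c01).congr (m := fun i j _ => c i j) fun i j x _ => by simp
  exact h.tnF.sub (h1.smul 2)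

theorem tnF_Q (h : Aff A c v) : TnF A (fun i j _ => c i j) (W.Q v) := by
  have h1 := (tnF_vv W.aff.c10 h.c01).congr (m := fun i j _ => c i j) fun i j x _ => by simp
  have h2 := (tnF_vv h.c10 W.aff.c10.cj).congr (m := fun i j _ => c i j) fun i j x _ => by simp
  exact (h.tnF.sub h1).sub h2

theorem dl_sth {i : A.ι} {x : M} (hx : x ∈ (A.e i).source) (a b : Fin n) :
    dl A i a (fun y => star (W.th i y) b) x = 0 := by
  have h1 : Hv A W.uc i x a b = 0 := by
    have : Hv A W.uc i x = 0 := W.ph i x hx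
    rw [this]; rfl
  rw [Hv_eq, W.pv_uc] at h1
  exact h1

theorem closed_M2 (h : ∀ i, A.SmAt i (v i)) (i : A.ι) (x : M) (hx : x ∈ (A.e i).source)
    (a b d : Fin n) :
    dl A i d (fun y => W.M2 v i y a b) x = dl A i a (fun y => W.M2 v i y d b) x := by
  have key : ∀ a d, dl A i d (fun y => W.M2 v i y a b) x =
      dl A i d (fun y => hm A (v i) i y a b) x -
        2 * (dl A i d (dl A i a (v i)) x * star (W.th i x) b) := by
    intro a d
    have e : (fun y => W.M2 v i y a b) =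
        fun y => hm A (v i) i y a b - 2 * (dl A i a (v i) y * star (W.th i y) b) := rfl
    have s1 : DA A i (dl A i a (v i)) x := da_of (smAt_dl (h i) a) hx
    have s2 : DA A i (fun y => star (W.th i y) b) x := da_of (smAt_conj (W.smAt_th i b)) hx
    rw [e, dl_sub (da_of (smAt_hm (h i) a b) hx) ((da_const _).mul (s1.mul s2)),
      dl_cmul _ (s1.mul s2), dlm s1 s2 hx, W.dl_sth hx, mul_zero, add_zero]
  rw [key, key, dl_hm_comm (h i) hx, dl_dl_comm (h i) hx]

theorem kappa_mul {κ : A.ι → A.ι → ℂ}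
    (hκ : ∀ i j, ∀ x ∈ (A.e i).source ∩ (A.e j).source, W.wt i x = κ i j * W.wt j x)
    (hc : W.Cmp c c') (i j : A.ι) (x : M) (hx : x ∈ (A.e i).source ∩ (A.e j).source) :
    c' i j * (κ i j * c i j) = 1 := by
  have h1 := hc i j x hx
  rw [hκ i j x hx] at h1
  apply mul_right_cancel₀ (W.wt_ne j x)
  linear_combination h1

variable [T2Space M] [CompactSpace M]

/-- the integral identity -/
theorem I1 (P : Part A) (K : Kah A) (hc : W.Cmp c c') (h : Aff A c v) (h' : Aff A c' v') :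
    totc P (fun i x => (Pm (K.g i x) (W.M2 v' i x) * Tm A (W.be v) i x).trace) = 0 := by
  obtain ⟨κ, hκ⟩ := W.exists_k
  exact stokesR P (fun i => smAt_Pm K (W.smAt_M2 h'.sm i)) (W.smAt_be h.sm)
    (rf_Pm K (W.tnF_M2 h')) (W.c01_be hκ h) (W.kappa_mul hκ hc)
    (dv0_Pm K (W.smAt_M2 h'.sm) (W.closed_M2 h'.sm))

theorem I1_dn (K : Kah A) (hc : W.Cmp c c') (h : Aff A c v) (h' : Aff A c' v') :
    Dn A (fun i x => (Pm (K.g i x) (W.M2 v' i x) * Tm A (W.be v) i x).trace) := by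
  obtain ⟨κ, hκ⟩ := W.exists_k
  exact dn_tr (rf_Pm K (W.tnF_M2 h')) (tnF_Tm (W.smAt_be h.sm) (W.c01_be hκ h))
    (W.kappa_mul hκ hc)

theorem I1_sm (K : Kah A) (h : ∀ i, A.SmAt i (v i)) (h' : ∀ i, A.SmAt i (v' i)) (i : A.ι) :
    A.SmAt i (fun x => (Pm (K.g i x) (W.M2 v' i x) * Tm A (W.be v) i x).trace) :=
  smAt_trace (smAt_mm (smAt_Pm K (W.smAt_M2 h' i)) (smAt_Tm (W.smAt_be h i)))

end Wt

/-- a smooth density with a sign and integral zero vanishes -/
theorem dn_zero [T2Space M] [CompactSpace M] [Finite A.ι] (P : Part A) (K : Kah A)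
    {f : A.ι → M → ℂ} (hf : Dn A f) (hs : ∀ i, A.SmAt i (f i)) (h0 : (totc P f).re = 0)
    (hn : ∀ x, 0 ≤ (fnD K f x).re) (x : M) : (fnD K f x).re = 0 := by
  let _ : MeasurableSpace M := borel M
  have : BorelSpace M := ⟨rfl⟩
  have := isFinite_vm (volK K)
  have := isOpenPos_vm (volK K)
  have h1 := integral_fnD_re K P hf hs
  rw [h0] at h1
  have hc : Continuous fun x => (fnD K f x).re := sm_continuous (sm_re (sm_fnD K hf hs))
  have h2 := (integral_eq_zero_iff_of_nonneg (μ := vm (volK K)) hn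
    (hc.integrable_of_hasCompactSupport (HasCompactSupport.of_compactSpace _))).1 h1
  exact congrFun ((hc.ae_eq_iff_eq (vm (volK K)) continuous_zero).1 h2) x

/-- **the Bochner identity** -/
theorem bochner [T2Space M] [CompactSpace M] [Finite A.ι] (P : Part A) (K : Kah A) (W : Wt A)
    (hc : W.Cmp c (fun i j => conj (c i j))) (h : Aff A c v)
    (hE : ∀ i, ∀ x ∈ (A.e i).source, ((K.g i x)⁻¹ * W.Q v i x).trace = 0)
    (i : A.ι) (x : M) (hx : x ∈ (A.e i).source) :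
    W.Q v i x = 0 ∧ (∀ a b, W.th i x a * dv A v i x b = W.th i x b * dv A v i x a) ∧
      ∀ a b, W.th i x a * pv A v i x b = W.th i x b * pv A v i x a := by
  set f1 : A.ι → M → ℂ := fun i x =>
    (Pm (K.g i x) (W.M2 (fun i y => conj (v i y)) i x) * Tm A (W.be v) i x).trace with hf1
  set f2 : A.ι → M → ℂ := fun i x =>
    (Pm (K.g i x) (W.M2 v i x) * Tm A (W.be (fun i y => conj (v i y))) i x).trace with hf2
  have e1 : totc P f1 = 0 := W.I1 P K hc h h.cj
  have e2 : totc P f2 = 0 := W.I1 P K hc.symm h.cj h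
  have d1 : Dn A f1 := W.I1_dn K hc h h.cj
  have d2 : Dn A f2 := W.I1_dn K hc.symm h.cj h
  have s1 : ∀ i, A.SmAt i (f1 i) := W.I1_sm K h.sm h.cj.sm
  have s2 : ∀ i, A.SmAt i (f2 i) := W.I1_sm K h.cj.sm h.sm
  have d3 : Dn A (fun i x => -1 * (f1 i x + f2 i x)) := by
    intro i j x hx
    change -1 * (f1 i x + f2 i x) = _ * (-1 * (f1 j x + f2 j x))
    rw [d1 i j x hx, d2 i j x hx]
    ring
  have s3 : ∀ i, A.SmAt i (fun x => -1 * (f1 i x + f2 i x)) := fun i =>
    contDiffOn_const.mul ((s1 i).add (s2 i))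
  have e3 : totc P (fun i x => -1 * (f1 i x + f2 i x)) = 0 := by
    rw [totc_smul, totc_add P s1 s2, e1, e2, add_zero, mul_zero]
  have key : ∀ i, ∀ x ∈ (A.e i).source, (fnD K (fun i x => -1 * (f1 i x + f2 i x)) x).re =
      - Real.exp (-2 * W.u i x) *
        (boch (K.g i x)⁻¹ (Hv A v i x) (W.th i x) (dv A v i x) (pv A v i x)).re := by
    intro i x hx
    have hd := K_det_ne K hx
    rw [fnD_div K d3 hx]
    have e : -1 * (f1 i x + f2 i x) / (K.g i x).det = ((- Real.exp (-2 * W.u i x) : ℝ) : ℂ) *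
        boch (K.g i x)⁻¹ (Hv A v i x) (W.th i x) (dv A v i x) (pv A v i x) := by
      simp only [hf1, hf2]
      rw [trace_Pm hd, trace_Pm hd, W.Tm_be h.sm hx, W.Tm_be h.cj.sm hx, W.M2_cj h.sm hx,
        W.M1_cj h.sm hx, Bq_smul_right, Bq_smul_right]
      unfold boch Wt.M1 Wt.M2 Wt.wt
      push_cast
      field_simp
    rw [e, Complex.re_ofReal_mul]
  have hn : ∀ x, 0 ≤ (fnD K (fun i x => -1 * (f1 i x + f2 i x)) x).re := by
    intro x
    rw [key _ x (mem_ci x), neg_mul, ← mul_neg]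
    exact mul_nonneg (Real.exp_pos _).le (neg_nonneg.2
      (boch_re_le (K.pos _ _ (mem_ci x)).inv _ _ _ _ (hE _ _ (mem_ci x))))
  have h0 := dn_zero P K d3 s3 (by rw [e3]; rfl) hn x
  rw [key i x hx] at h0
  have h1 := (mul_eq_zero.1 h0).resolve_left (neg_ne_zero.2 (Real.exp_pos _).ne')
  exact boch_eq (K.pos i x hx).inv _ _ _ _ (hE i x hx) h1

end

end Crest.Agent.X261.Har
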