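import Crest.Agent.X261.Har.Boch
import Crest.Agent.R273.GreenG_5

/-!
# X261, HAR (helper94), file HeA: exact `(2,0)` forms and exact constant `(1,1)` forms

* `two_zero` : a holomorphic 2-form which is `∂`-exact vanishes;
* `one_one`  : if `Φᵀ T Φ̄ = ∂β - (∂β)ᴴ` and `Φ` is onto at one point, then `T = 0`.
-/

set_option autoImplicit false
set_option linter.unusedSectionVars false

open Set Filter Topology Complex MeasureTheory
open scoped ContDiff Matrix ComplexConjugate ComplexOrder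

namespace Crest.Agent.X261.Har

open Crest.Agent.R275 Crest.Agent.R275.Geo Crest.Agent.R275.Core144 Crest.Agent.R275.EDR890
open Crest.Agent.R275.SerG398 (dens)
open Crest.Agent.R275.OmT75 (dj dl)
open Crest.Agent.R273.Kah_333 Crest.Agent.R273.Vol_333 Crest.Agent.R273.Vm_333
open Crest.Agent.R273.StV_37 Crest.Agent.R273.Green_5
open Crest.Agent.R273.VolInv_5 Crest.Agent.R273.GreenM_5

noncomputable section

/-! ### algebra -/

section alg

variable {n q : ℕ}

theorem hs2_nonneg {h k : Matrix (Fin n) (Fin n) ℂ} (hh : h.PosDef) (hk : k.PosDef)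
    (Q : Matrix (Fin n) (Fin n) ℂ) :
    0 ≤ (h * Q * k * Qᴴ).trace ∧ ((h * Q * k * Qᴴ).trace = 0 → Q = 0) := by
  obtain ⟨B, hB⟩ := exists_sqrt hh.posSemidef
  obtain ⟨C, hC⟩ := exists_sqrt hk.posSemidef
  have e : (h * Q * k * Qᴴ).trace = ((C * Qᴴ * Bᴴ)ᴴ * (C * Qᴴ * Bᴴ)).trace := by
    rw [hB, hC]
    simp only [Matrix.conjTranspose_mul, Matrix.conjTranspose_conjTranspose]
    rw [show Bᴴ * B * Q * (Cᴴ * C) * Qᴴ = Bᴴ * (B * Q * (Cᴴ * C) * Qᴴ) by
      simp only [Matrix.mul_assoc], Matrix.trace_mul_comm]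
    simp only [Matrix.mul_assoc]
  rw [e]
  refine ⟨(Matrix.posSemidef_conjTranspose_mul_self _).trace_nonneg, fun h0 => ?_⟩
  have h1 := Matrix.trace_conjTranspose_mul_self_eq_zero_iff.1 h0
  have hd : ∀ {h B : Matrix (Fin n) (Fin n) ℂ}, h.PosDef → h = Bᴴ * B → IsUnit B.det := by
    intro h B hh hB
    refine isUnit_iff_ne_zero.2 fun hb => ?_
    have := hh.det_pos.ne'
    rw [hB, Matrix.det_mul, hb, mul_zero] at this
    exact this rfl
  have hu := hd hk hC
  have hu' : IsUnit Bᴴ.det := by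
    rw [Matrix.det_conjTranspose]
    exact (hd hh hB).star
  have h2 : Qᴴ = C⁻¹ * (C * Qᴴ * Bᴴ) * Bᴴ⁻¹ := by
    rw [show C⁻¹ * (C * Qᴴ * Bᴴ) * Bᴴ⁻¹ = (C⁻¹ * C) * Qᴴ * (Bᴴ * Bᴴ⁻¹) by
      simp only [Matrix.mul_assoc], Matrix.nonsing_inv_mul _ hu, Matrix.mul_nonsing_inv _ hu',
      Matrix.one_mul, Matrix.mul_one]
  rw [h1, Matrix.mul_zero, Matrix.zero_mul] at h2
  exact Matrix.conjTranspose_eq_zero.1 h2

theorem eq_zero_of_trace_posDef {T : Matrix (Fin q) (Fin q) ℂ}
    (h : ∀ Y : Matrix (Fin q) (Fin q) ℂ, Y.PosDef → (Y * T).trace = 0) : T = 0 := by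
  have h1 : ∀ W : Matrix (Fin q) (Fin q) ℂ, (W * T).trace + (Wᴴ * T).trace = 0 := by
    intro W
    have h2 := h _ (Matrix.PosDef.one.add_posSemidef
      (Matrix.posSemidef_conjTranspose_mul_self (1 + W)))
    have h3 := h _ (Matrix.PosDef.one.add_posSemidef
      (Matrix.posSemidef_conjTranspose_mul_self (1 - W)))
    simp only [Matrix.conjTranspose_add, Matrix.conjTranspose_sub, Matrix.conjTranspose_one,
      Matrix.add_mul, Matrix.mul_add, Matrix.sub_mul, Matrix.mul_sub, Matrix.one_mul,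
      Matrix.mul_one, Matrix.trace_add, Matrix.trace_sub] at h2 h3
    linear_combination (h2 - h3) / 2
  have h2 := h1 Tᴴ
  have h3 := h1 (I • Tᴴ)
  simp only [Matrix.conjTranspose_smul, Matrix.smul_mul, Matrix.trace_smul, smul_eq_mul,
    RCLike.star_def, Complex.conj_I] at h3
  apply Matrix.trace_conjTranspose_mul_self_eq_zero_iff.1
  have h4 : (2 * I) * (Tᴴ * T).trace = 0 := by linear_combination I * h2 + h3
  exact (mul_eq_zero.1 h4).resolve_left (mul_ne_zero two_ne_zero I_ne_zero)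

/-- pull-back of a constant `(1,1)` form -/
def pb (Φ : Matrix (Fin q) (Fin n) ℂ) (N : Matrix (Fin q) (Fin q) ℂ) : Matrix (Fin n) (Fin n) ℂ :=
  Φᵀ * N * Φ.map conj

/-- the Gram matrix of the rows of `Φ` -/
def gr (g : Matrix (Fin n) (Fin n) ℂ) (Φ : Matrix (Fin q) (Fin n) ℂ) : Matrix (Fin q) (Fin q) ℂ :=
  Φ.map conj * g⁻¹ * Φᵀ

theorem pb_add (Φ : Matrix (Fin q) (Fin n) ℂ) (N N' : Matrix (Fin q) (Fin q) ℂ) :
    pb Φ (N + N') = pb Φ N + pb Φ N' := by
  unfold pb
  rw [Matrix.mul_add, Matrix.add_mul]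

theorem pb_sub (Φ : Matrix (Fin q) (Fin n) ℂ) (N N' : Matrix (Fin q) (Fin q) ℂ) :
    pb Φ (N - N') = pb Φ N - pb Φ N' := by
  unfold pb
  rw [Matrix.mul_sub, Matrix.sub_mul]

theorem pb_smul (Φ : Matrix (Fin q) (Fin n) ℂ) (c : ℂ) (N : Matrix (Fin q) (Fin q) ℂ) :
    pb Φ (c • N) = c • pb Φ N := by
  unfold pb
  rw [Matrix.mul_smul, Matrix.smul_mul]

theorem map_conj_eq (Φ : Matrix (Fin q) (Fin n) ℂ) : Φ.map conj = (Φᵀ)ᴴ := rfl

theorem pb_conjT (Φ : Matrix (Fin q) (Fin n) ℂ) (N : Matrix (Fin q) (Fin q) ℂ) :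
    (pb Φ N)ᴴ = pb Φ Nᴴ := by
  unfold pb
  rw [map_conj_eq, Matrix.conjTranspose_mul, Matrix.conjTranspose_mul,
    Matrix.conjTranspose_conjTranspose, Matrix.mul_assoc]

theorem trace_pb (g : Matrix (Fin n) (Fin n) ℂ) (Φ : Matrix (Fin q) (Fin n) ℂ)
    (N : Matrix (Fin q) (Fin q) ℂ) : (g⁻¹ * pb Φ N).trace = (N * gr g Φ).trace := by
  unfold pb gr
  rw [show g⁻¹ * (Φᵀ * N * Φ.map conj) = (g⁻¹ * Φᵀ) * (N * Φ.map conj) by
    simp only [Matrix.mul_assoc], Matrix.trace_mul_comm]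
  simp only [Matrix.mul_assoc]

theorem det_pb {g : Matrix (Fin n) (Fin n) ℂ} (hg : g.det ≠ 0) (Φ : Matrix (Fin q) (Fin n) ℂ)
    (N : Matrix (Fin q) (Fin q) ℂ) : (g + pb Φ N).det = g.det * (1 + N * gr g Φ).det := by
  have h1 : g + pb Φ N = g * (1 + (g⁻¹ * Φᵀ) * (N * Φ.map conj)) := by
    rw [Matrix.mul_add, Matrix.mul_one, ← Matrix.mul_assoc g, ← Matrix.mul_assoc g,
      Matrix.mul_nonsing_inv _ (isUnit_iff_ne_zero.2 hg), Matrix.one_mul, pb, Matrix.mul_assoc]
  rw [h1, Matrix.det_mul, Matrix.det_one_add_mul_comm]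
  simp only [gr, Matrix.mul_assoc]

theorem adj_pb {g : Matrix (Fin n) (Fin n) ℂ} (hg : g.det ≠ 0) (Φ : Matrix (Fin q) (Fin n) ℂ)
    (N T : Matrix (Fin q) (Fin q) ℂ) : ((g + pb Φ N).adjugate * pb Φ T).trace =
      g.det * ((1 + N * gr g Φ).adjugate * (T * gr g Φ)).trace := by
  rw [← R273.GreenG_5.coeff_one_dp, ← R273.GreenG_5.coeff_one_dp, ← Polynomial.coeff_C_mul]
  congr 1
  refine Polynomial.funext fun s => ?_
  rw [Polynomial.eval_mul, Polynomial.eval_C, eval_dp, eval_dp, add_assoc, ← pb_smul, ← pb_add,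
    det_pb hg, Matrix.add_mul, Matrix.smul_mul, add_assoc]

end alg

variable {n q : ℕ} {M : Type} [TopologicalSpace M] {A : Atl n M}

theorem cf_of {S : A.ι → M → Matrix (Fin n) (Fin n) ℂ}
    (hs : ∀ i a b, A.SmAt i (fun x => S i x a b)) (ht : Tn A S)
    (hc : ∀ i, ∀ x ∈ (A.e i).source, ∀ a b c,
      dl A i c (fun y => S i y a b) x = dl A i a (fun y => S i y c b) x) : CF A S := by
  refine ⟨hs, ht, fun i z hz a b c => ?_⟩
  rw [← dl_read (A := A) (fun y => S i y a b) i c hz, ← dl_read (A := A) (fun y => S i y c b) i a hz]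
  exact hc i _ ((A.e i).map_target hz) a b c

theorem inv_tr (K : Kah A) {i j : A.ι} {x : M} (hx : x ∈ (A.e i).source ∩ (A.e j).source) :
    (Jm A i j x).map conj * (K.g i x)⁻¹ * (Jm A i j x)ᵀ = (K.g j x)⁻¹ := by
  have h0 : (Jm A i j x).map conj * (K.g i x).adjugate * (Jm A i j x)ᵀ =
      (1 * dens A i j x) • (K.g j x).adjugate := rf_adj (K_tn K) i j x hx
  have h2 : (K.g i x).det = dens A i j x * (K.g j x).det := (K_tn K).det i j x hx
  rw [adj_eq (K_det_ne K hx.1), adj_eq (K_det_ne K hx.2), smul_smul, one_mul, ← h2,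
    Matrix.mul_smul, Matrix.smul_mul] at h0
  exact smul_right_injective _ (K_det_ne K hx.1) h0

variable [T2Space M] [CompactSpace M] [Finite A.ι]

/-- **exact holomorphic 2-forms vanish** -/
theorem two_zero (P : Part A) (K : Kah A) {η : A.ι → M → Fin n → ℂ}
    {σ : A.ι → M → Matrix (Fin n) (Fin n) ℂ} (hs : ∀ i b, A.SmAt i (fun y => η i y b))
    (hη : C10 A (fun _ _ _ => 1) η) (hσs : ∀ i a b, A.SmAt i (fun y => σ i y a b))
    (hσ : ∀ i, ∀ x ∈ (A.e i).source, σ i x = Tm A η i x - (Tm A η i x)ᵀ)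
    (ht : ∀ i j, ∀ x ∈ (A.e i).source ∩ (A.e j).source,
      σ i x = (Jm A i j x)ᵀ * σ j x * Jm A i j x)
    (hh : ∀ i, ∀ x ∈ (A.e i).source, ∀ a b c, dl A i c (fun y => conj (σ i y a b)) x = 0)
    (i : A.ι) (x : M) (hx : x ∈ (A.e i).source) : σ i x = 0 := by
  set ζ : A.ι → M → Fin n → ℂ := fun i x => (K.g i x)⁻¹ *ᵥ η i x with hζ
  set β : A.ι → M → Fin n → ℂ := fun i x => (σ i x).map conj *ᵥ ζ i x with hβ
  have hζs : ∀ i b, A.SmAt i (fun y => ζ i y b) := fun i b =>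
    ContDiffOn.sum (s := Finset.univ)
      (f := fun c z => (K.g i ((A.e i).symm z))⁻¹ b c * η i ((A.e i).symm z) c)
      fun c _ => (smAt_inv K i b c).mul (hs i c)
  have hβs : ∀ i b, A.SmAt i (fun y => β i y b) := fun i b =>
    ContDiffOn.sum (s := Finset.univ)
      (f := fun c z => conj (σ i ((A.e i).symm z) b c) * ζ i ((A.e i).symm z) c)
      fun c _ => (smAt_conj (hσs i b c)).mul (hζs i c)
  have hβt : C01 A (fun _ _ _ => 1) β := by
    intro i j x hx
    simp only [hβ, hζ, one_smul]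
    rw [ht i j x hx, hη i j x hx, one_smul, ← inv_tr K hx, Matrix.map_mul, Matrix.map_mul]
    simp only [Matrix.mulVec_mulVec, Matrix.mul_assoc, Matrix.transpose_map]
  have hA : ∀ i a b, A.SmAt i (fun y => (K.g i y).adjugate a b) := fun i a b =>
    smAt_adj (kah_cf K) i b a
  have h0 := stokesR P hA hβs (rf_adj (K_tn K)) hβt (fun _ _ _ _ => one_mul _)
    (dv0_adj (kah_cf K))
  have hd := dn_tr (rf_adj (K_tn K)) (tnF_Tm (c := fun _ _ => 1) hβs hβt)
    (fun _ _ _ _ => one_mul _)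
  have key : ∀ i, ∀ x ∈ (A.e i).source,
      fnD K (fun i x => ((K.g i x).adjugate * Tm A β i x).trace) x =
        (1 / 2 : ℝ) * ((K.g i x)⁻¹ * σ i x * (K.g i x)⁻¹ᵀ * (σ i x)ᴴ).trace := by
    intro i x hx
    have hu := isUnit_iff_ne_zero.2 (K_det_ne K hx)
    have h1 : Tm A β i x = Tm A ζ i x * (σ i x)ᴴ := by
      ext a b
      have e : (fun y => β i y b) = fun y => ∑ c, conj (σ i y b c) * ζ i y c := rfl
      rw [Tm_apply, e, dl_fsum fun c _ =>
        (da_of (smAt_conj (hσs i b c)) hx).mul (da_of (hζs i c) hx), Matrix.mul_apply]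
      refine Finset.sum_congr rfl fun c _ => ?_
      rw [dlm (da_of (smAt_conj (hσs i b c)) hx) (da_of (hζs i c) hx) hx, hh i x hx, zero_mul,
        zero_add, mul_comm]
      rfl
    set U := Tm A ζ i x * (K.g i x)ᵀ with hU
    have h2 : ∀ a e, U a e = Tm A η i x a e -
        ∑ d, dl A i a (fun y => K.g i y e d) x * ζ i x d := by
      intro a e
      have h3 : (fun y => η i y e) =ᶠ[𝓝 x] fun y => ∑ d, K.g i y e d * ζ i y d := by
        filter_upwards [(A.e i).open_source.mem_nhds hx] with y hy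
        have : K.g i y *ᵥ ζ i y = η i y := by
          rw [hζ, Matrix.mulVec_mulVec,
            Matrix.mul_nonsing_inv _ (isUnit_iff_ne_zero.2 (K_det_ne K hy)), Matrix.one_mulVec]
        exact (congrFun this e).symm
      rw [Tm_apply, dl_congr hx h3,
        dl_fsum fun d _ => (da_of (K.sm i e d) hx).mul (da_of (hζs i d) hx),
        ← Finset.sum_sub_distrib, hU, Matrix.mul_apply]
      refine Finset.sum_congr rfl fun d _ => ?_
      rw [dlm (da_of (K.sm i e d) hx) (da_of (hζs i d) hx) hx, Tm_apply, Matrix.transpose_apply]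
      ring
    have h3 : σ i x = U - Uᵀ := by
      rw [hσ i x hx]
      ext a e
      simp only [Matrix.sub_apply, Matrix.transpose_apply, h2, dl_K K hx e _ a]
      ring
    have h4 : Tm A ζ i x = U * (K.g i x)⁻¹ᵀ := by
      rw [hU, Matrix.mul_assoc, ← Matrix.transpose_mul, Matrix.nonsing_inv_mul _ hu,
        Matrix.transpose_one, Matrix.mul_one]
    have h5 : (σ i x)ᴴᵀ = - (σ i x)ᴴ := by
      rw [h3]
      ext a b
      simp
    have h6 : ((K.g i x)⁻¹ * (U * (K.g i x)⁻¹ᵀ * (σ i x)ᴴ)).trace =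
        - ((K.g i x)⁻¹ * Uᵀ * (K.g i x)⁻¹ᵀ * (σ i x)ᴴ).trace := by
      rw [← Matrix.trace_transpose]
      simp only [Matrix.transpose_mul, Matrix.transpose_transpose, h5]
      rw [Matrix.mul_assoc, Matrix.trace_mul_comm, Matrix.mul_neg, Matrix.trace_neg]
    rw [fnD_div K hd hx, trace_adj K _ hx, mul_div_cancel_right₀ _ (K_det_ne K hx), h1, h4]
    have h7 : ((K.g i x)⁻¹ * σ i x * (K.g i x)⁻¹ᵀ * (σ i x)ᴴ).trace =
        ((K.g i x)⁻¹ * (U * (K.g i x)⁻¹ᵀ * (σ i x)ᴴ)).trace -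
          ((K.g i x)⁻¹ * Uᵀ * (K.g i x)⁻¹ᵀ * (σ i x)ᴴ).trace := by
      rw [← Matrix.trace_sub]
      congr 1
      conv_lhs => enter [1, 1, 2]; rw [h3]
      simp only [Matrix.mul_sub, Matrix.sub_mul, Matrix.mul_assoc]
    rw [h7]
    push_cast
    linear_combination (1 / 2 : ℂ) * h6
  have hp : ∀ i, ∀ x ∈ (A.e i).source, _ := fun i x hx =>
    hs2_nonneg (K.pos i x hx).inv (K.pos i x hx).inv.transpose (σ i x)
  have h1 := dn_zero P K hd (fun i => smAt_trace (smAt_mm (hA i) (smAt_Tm (hβs i))))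
    (by rw [h0]; rfl) (fun x => by
      rw [key _ x (mem_ci x), Complex.re_ofReal_mul]
      exact mul_nonneg (by norm_num) (Complex.le_def.1 (hp _ x (mem_ci x)).1).1) x
  rw [key i x hx, Complex.re_ofReal_mul] at h1
  refine (hp i x hx).2 (Complex.ext ?_ (Complex.le_def.1 (hp i x hx).1).2.symm)
  simpa using h1

/-- **exact constant `(1,1)` forms vanish** -/
theorem one_one (P : Part A) (K : Kah A) {Φ : A.ι → M → Matrix (Fin q) (Fin n) ℂ}
    (hΦ : ∀ N, CF A (fun i x => pb (Φ i x) N)) {β : A.ι → M → Fin n → ℂ}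
    (hs : ∀ i b, A.SmAt i (fun y => β i y b)) (hβ : C01 A (fun _ _ _ => 1) β)
    {T : Matrix (Fin q) (Fin q) ℂ}
    (hT : ∀ i, ∀ x ∈ (A.e i).source, pb (Φ i x) T = Tm A β i x - (Tm A β i x)ᴴ)
    {i0 : A.ι} {x0 : M} (hx0 : x0 ∈ (A.e i0).source)
    (h0 : Function.Injective (Φ i0 x0)ᵀ.mulVec) : T = 0 := by
  let _ : MeasurableSpace M := borel M
  have : BorelSpace M := ⟨rfl⟩
  have := isFinite_vm (volK K)
  have := isOpenPos_vm (volK K)
  set Kg : M → Matrix (Fin q) (Fin q) ℂ := fun x => gr (K.g (ci A x) x) (Φ (ci A x) x) with hKg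
  have hKe : ∀ x k l, Kg x k l = trK K (fun i x => pb (Φ i x) (Matrix.single l k 1)) x := by
    intro x k l
    unfold trK
    rw [trace_pb, Matrix.trace_single_mul, smul_eq_mul, one_mul]
  have hKc : Continuous Kg := continuous_matrix fun k l => by
    simp only [hKe]
    exact sm_continuous (sm_trK K (CF.tn (hΦ _)) (hΦ _).sm)
  have hK0 : Kg x0 = gr (K.g i0 x0) (Φ i0 x0) := by
    ext k l
    rw [hKe, trK_eq K (CF.tn (hΦ _)) hx0, trace_pb, Matrix.trace_single_mul, smul_eq_mul, one_mul]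
  have hKp : ∀ x, 0 ≤ (Kg x).det := fun x =>
    ((K.pos _ x (mem_ci x)).inv.posSemidef.conjTranspose_mul_mul_same (Φ (ci A x) x)ᵀ).det_nonneg
  have hI : ∫ x, (Kg x).det ∂(vm (volK K)) ≠ 0 := by
    intro h
    have hc : Continuous fun x => (Kg x).det := hKc.matrix_det
    have h1 : 0 < ∫ x, ((Kg x).det).re ∂(vm (volK K)) := by
      refine (Complex.continuous_re.comp hc).integral_pos_of_hasCompactSupport_nonneg_nonzero
        (x := x0) (HasCompactSupport.of_compactSpace _) (fun x => (Complex.le_def.1 (hKp x)).1) ?_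
      rw [hK0]
      exact (Complex.pos_iff.1
        ((K.pos i0 x0 hx0).inv.conjTranspose_mul_mul_same h0).det_pos).1.ne'
    have h2 := integral_re (μ := vm (volK K))
      (hc.integrable_of_hasCompactSupport (HasCompactSupport.of_compactSpace _))
    rw [h] at h2
    exact h1.ne' h2
  refine eq_zero_of_trace_posDef fun Y hY => ?_
  set E := Y⁻¹ with hE
  have h1 : ∀ t : ℝ, ∫ x, ((1 + ((t : ℂ) • E) * Kg x).adjugate * (T * Kg x)).trace
      ∂(vm (volK K)) = 0 := by
    intro t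
    have hG := (kah_cf K).add (hΦ ((t : ℂ) • E))
    have hA : ∀ i a b, A.SmAt i (fun y => (K.g i y + pb (Φ i y) ((t : ℂ) • E)).adjugate a b) :=
      fun i a b => smAt_adj hG i b a
    have h2 := stokesR P hA hs (rf_adj (CF.tn hG)) hβ (fun _ _ _ _ => one_mul _) (dv0_adj hG)
    have h3 : totc P (fun i x => conj ((K.g i x + pb (Φ i x) ((t : ℂ) • E)).adjugate *
        Tm A β i x).trace) = 0 := (tot_conj P _ _).trans (by rw [← map_zero conj, ← h2]; rfl)
    have s1 := fun i => smAt_trace (smAt_mm (hA i) (smAt_Tm (hs i)))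
    have h5 : totc P (fun i x => ((K.g i x + pb (Φ i x) ((t : ℂ) • E)).adjugate *
        pb (Φ i x) T).trace) = 0 := by
      refine (totc_congr P fun i x hx => ?_).trans ((tot_sub P _ s1
        fun i => smAt_conj (s1 i)).trans (sub_eq_zero.2 (h2.trans h3.symm)))
      have h6 : (K.g i x + pb (Φ i x) ((t : ℂ) • E)).IsHermitian := by
        refine (K.pos i x hx).1.add ?_
        unfold Matrix.IsHermitian
        rw [pb_conjT, Matrix.conjTranspose_smul, hY.inv.1.eq, RCLike.star_def, Complex.conj_ofReal]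
      rw [hT i x hx, Matrix.mul_sub, Matrix.trace_sub, trace_conjT h6.adjugate]
    rw [← integral_fnD K P (R273.GreenG_5.trA_dn (CF.tn hG) (CF.tn (hΦ T)))
      (R273.GreenG_5.smAt_trA hG (hΦ T))] at h5
    rw [← h5]
    refine integral_congr_ae (Eventually.of_forall fun x => ?_)
    unfold fnD
    simp only
    rw [adj_pb (K_det_ne K (mem_ci x)), mul_div_cancel_left₀ _ (K_det_ne K (mem_ci x))]
  set F : ℝ → ℂ := fun s => ∫ x in univ, (((s : ℂ) • 1 + E * Kg x).adjugate * (T * Kg x)).trace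
    ∂(vm (volK K)) with hF
  have hFc : Continuous F := by
    refine continuous_parametric_integral_of_continuous ?_ isCompact_univ
    have h2 : Continuous fun p : ℝ × M => Kg p.2 := hKc.comp continuous_snd
    exact (((((Complex.continuous_ofReal.comp continuous_fst).smul continuous_const).add
      (continuous_const.matrix_mul h2)).matrix_adjugate).matrix_mul
        (continuous_const.matrix_mul h2)).matrix_trace
  have h2 : ∀ s : ℝ, s ≠ 0 → F s = 0 := by
    intro s hs0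
    have hs1 : (s : ℂ) ≠ 0 := by exact_mod_cast hs0
    have h3 : ∀ x, (((s : ℂ) • 1 + E * Kg x).adjugate * (T * Kg x)).trace =
        (s : ℂ) ^ (Fintype.card (Fin q) - 1) *
          ((1 + (((s⁻¹ : ℝ) : ℂ) • E) * Kg x).adjugate * (T * Kg x)).trace := by
      intro x
      rw [← smul_eq_mul ((s : ℂ) ^ _), ← Matrix.trace_smul, ← Matrix.smul_mul, ← Matrix.adjugate_smul, smul_add,
        Matrix.smul_mul, smul_smul, Complex.ofReal_inv, mul_inv_cancel₀ hs1, one_smul]
    simp only [hF, h3, Measure.restrict_univ]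
    rw [integral_const_mul, h1, mul_zero]
  have h3 : F 0 = 0 :=
    congrFun (hFc.ext_on (dense_compl_singleton (0 : ℝ)) continuous_zero fun s hs => h2 s hs) 0
  have h4 : ∀ x, ((((0 : ℝ) : ℂ) • 1 + E * Kg x).adjugate * (T * Kg x)).trace =
      (E.det * (Y * T).trace) * (Kg x).det := by
    intro x
    rw [Complex.ofReal_zero, zero_smul, zero_add, Matrix.adjugate_mul_distrib, ← Matrix.mul_assoc,
      Matrix.trace_mul_comm, ← Matrix.mul_assoc, ← Matrix.mul_assoc, Matrix.mul_adjugate,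
      adj_eq hY.inv.det_pos.ne', Matrix.nonsing_inv_nonsing_inv _ (isUnit_iff_ne_zero.2
        hY.det_pos.ne')]
    simp only [Matrix.smul_mul, Matrix.one_mul, Matrix.trace_smul, smul_eq_mul, hE]
    ring
  simp only [hF, h4, Measure.restrict_univ] at h3
  rw [integral_const_mul] at h3
  exact (mul_eq_zero.1 ((mul_eq_zero.1 h3).resolve_right hI)).resolve_left hY.inv.det_pos.ne'

end

end Crest.Agent.X261.Har
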