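import Crest.Agent.X261.Har.Boch
import Crest.Agent.R273.CLinE_933
import Crest.Agent.R273.AlbC_645

/-!
# X261, HAR (helper94), file Hz: Hodge decomposition of real `H¹` on every compact Kähler manifold

* `exists_ph` : a real affine family becomes pluriharmonic after subtracting a global function;
* `hodgeZ`    : 645's hypothesis `HodgeZ A P` without curvature assumption.
-/

set_option autoImplicit false
set_option linter.unusedSectionVars false

open Set Filter Topology Complex MeasureTheory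
open scoped ContDiff Matrix ComplexConjugate ComplexOrder

namespace Crest.Agent.X261.Har

open Crest.Agent.R275 Crest.Agent.R275.Geo Crest.Agent.R275.Core144 Crest.Agent.R275.EDR890
open Crest.Agent.R275.C1d194 (smAt_ofReal)
open Crest.Agent.R275.OmT75 (dj dl)
open Crest.Agent.R273.Kah_333 Crest.Agent.R273.Vol_333 Crest.Agent.R273.Vm_333
open Crest.Agent.R273.StV_37 Crest.Agent.R273.Green_5 Crest.Agent.R273.HessB_333
open Crest.Agent.R273.VolInv_5 Crest.Agent.R273.GreenM_5
open Crest.Agent.R273.Alb645 Crest.Agent.R273.PiEnd_836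

noncomputable section

variable {n : ℕ} {M : Type} [TopologicalSpace M] {A : Atl n M}

theorem db_add {i : A.ι} {f g : M → ℂ} {x : M} (hf : DA A i f x) (hg : DA A i g x) (a : Fin n) :
    A.db i a (fun y => f y + g y) x = A.db i a f x + A.db i a g x := by
  rw [db_eq_conj, db_eq_conj, db_eq_conj, ← map_add, ← dl_add hf.conj hg.conj]
  simp only [map_add]

theorem db_sub {i : A.ι} {f g : M → ℂ} {x : M} (hf : DA A i f x) (hg : DA A i g x) (a : Fin n) :
    A.db i a (fun y => f y - g y) x = A.db i a f x - A.db i a g x := by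
  rw [db_eq_conj, db_eq_conj, db_eq_conj, ← map_sub, ← dl_sub hf.conj hg.conj]
  simp only [map_sub]

theorem hm_sub {i : A.ι} {f g : M → ℂ} (hf : A.SmAt i f) (hg : A.SmAt i g) {x : M}
    (hx : x ∈ (A.e i).source) : hm A (fun y => f y - g y) i x = hm A f i x - hm A g i x := by
  ext a b
  rw [Matrix.sub_apply, hm_apply, hm_apply, hm_apply,
    ← dl_sub (da_of (hf.db b) hx) (da_of (hg.db b) hx)]
  refine dl_congr hx ?_ a
  filter_upwards [(A.e i).open_source.mem_nhds hx] with y hy
  exact db_sub (da_of hf hy) (da_of hg hy) b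

theorem hm_zero (i : A.ι) (x : M) : hm A (fun _ => (0 : ℂ)) i x = 0 := by
  ext a b
  have h1 : A.db i b (fun _ => (0 : ℂ)) = fun _ => 0 := by
    funext y
    rw [db_eq_conj]
    simp only [map_zero, dl_cst]
  rw [hm_apply, h1, dl_cst]
  rfl

/-- the trivial weight -/
def Wt.zero (A : Atl n M) : Wt A where
  u _ _ := 0
  sm _ := contDiffOn_const
  tr _ _ := ⟨0, fun _ _ => (add_zero _).symm⟩
  ph i x _ := by simpa only [Complex.ofReal_zero] using hm_zero i x

theorem Wt.zero_th (i : A.ι) (x : M) : (Wt.zero A).th i x = 0 := by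
  funext a
  exact dl_cst i a ((0 : ℝ) : ℂ) x

theorem Wt.zero_Q (v : A.ι → M → ℂ) (i : A.ι) (x : M) : (Wt.zero A).Q v i x = Hv A v i x := by
  unfold Wt.Q Qm
  rw [Wt.zero_th]
  ext a b
  simp

theorem Wt.zero_cmp : (Wt.zero A).Cmp (fun _ _ => 1) (fun _ _ => conj (1 : ℂ)) := by
  intro i j x _
  simp [Wt.wt, Wt.zero]

theorem TnF.tn {S : A.ι → M → Matrix (Fin n) (Fin n) ℂ} (h : TnF A (fun _ _ _ => 1) S) :
    Tn A S := fun i j x hx => by rw [h i j x hx, one_smul]

/-- a harmonic affine family is pluriharmonic -/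
theorem ph_of_harm [T2Space M] [CompactSpace M] [Finite A.ι] (P : Part A) (K : Kah A)
    {v : A.ι → M → ℂ} (h : Aff A (fun _ _ => 1) v)
    (hE : ∀ i, ∀ x ∈ (A.e i).source, ((K.g i x)⁻¹ * hm A (v i) i x).trace = 0)
    (i : A.ι) (x : M) (hx : x ∈ (A.e i).source) : hm A (v i) i x = 0 := by
  have h1 := (bochner P K (Wt.zero A) Wt.zero_cmp h
    (fun i x hx => by rw [Wt.zero_Q]; exact hE i x hx) i x hx).1
  rwa [Wt.zero_Q] at h1

/-- **pluriharmonic representatives** -/
theorem exists_ph [T2Space M] [CompactSpace M] [ConnectedSpace M] [Finite A.ι] (P : Part A)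
    (K : Kah A) {f : A.ι → M → ℝ} (h : Aff A (fun _ _ => 1) (fun i y => (f i y : ℂ))) :
    ∃ v : M → ℝ, A.Sm v ∧
      ∀ i, ∀ x ∈ (A.e i).source, hm A (fun y => (f i y : ℂ) - (v y : ℂ)) i x = 0 := by
  let _ : MeasurableSpace M := borel M
  have : BorelSpace M := ⟨rfl⟩
  set S := Hv A (fun i y => (f i y : ℂ)) with hS
  have hT : Tn A S := h.tnF.tn
  have hSs : ∀ i a b, A.SmAt i (fun y => S i y a b) := smAt_Hv h.sm
  have hA : ∀ i a b, A.SmAt i (fun y => (K.g i y).adjugate a b) := fun i a b =>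
    smAt_adj (kah_cf K) i b a
  have h0 : totc P (fun i x => ((K.g i x).adjugate * S i x).trace) = 0 := by
    rw [hS, Hv_eq]
    exact stokesR P hA (smAt_spv h.sm) (rf_adj (K_tn K)) h.c01 (fun _ _ _ _ => one_mul _)
      (dv0_adj (kah_cf K))
  have h1 := integral_fnD_re K P (adj_dn K hT) (fun i => smAt_trace (smAt_mm (hA i) (hSs i)))
  simp only [fnD_adj, h0, Complex.zero_re] at h1
  obtain ⟨v, hv, hvF⟩ := R273.CLin_933.lin_zero K P (sm_re (sm_trK K hT hSs)) h1
  have hvc : ∀ i, A.SmAt i (fun y => (v y : ℂ)) := fun i => smAt_ofReal (hv i)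
  refine ⟨v, hv, ph_of_harm P K (v := fun i y => (f i y : ℂ) - (v y : ℂ))
    ⟨fun i => (h.sm i).sub (hvc i), fun i j x hx => ?_⟩ fun i x hx => ?_⟩
  · obtain ⟨b, hb⟩ := h.tr i j x hx
    exact ⟨b, by filter_upwards [hb] with y hy; rw [hy]; ring⟩
  · rw [hm_sub (h.sm i) (hvc i) hx, Matrix.mul_sub, Matrix.trace_sub, hm_ofReal v i hx,
      ← trK_eq K (hsf_tn hv) hx, ← lapK_ofReal K hv, hvF x, trK_eq K hT hx]
    have h2 : (S i x).IsHermitian := by
      have h3 := hm_conj (h.sm i) hx
      simp only [Complex.conj_ofReal] at h3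
      exact h3.symm
    rw [trace_real (K.pos i x hx).1 h2]
    exact sub_self _

/-! ### the form `∂ u` -/

/-- the coordinates -/
def pj (a : Fin n) : Cn n →L[ℂ] ℂ := EuclideanSpace.proj a

theorem pj_apply (a : Fin n) (w : Cn n) : pj a w = w a := rfl

/-- the linear form with coefficients `c` -/
def lf (c : Fin n → ℂ) : Cn n →L[ℂ] ℂ := ∑ a, c a • pj a

theorem lf_apply (c : Fin n → ℂ) (w : Cn n) : lf c w = ∑ a, c a * w a := by
  simp [lf, pj_apply]

theorem lf_single (c : Fin n → ℂ) (a : Fin n) : lf c (EuclideanSpace.single a 1) = c a := by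
  rw [lf_apply, Finset.sum_eq_single a]
  · simp
  · intro b _ hb
    simp [hb]
  · intro h
    exact absurd (Finset.mem_univ a) h

theorem cn_sum (v : Cn n) : v = ∑ b, v b • EuclideanSpace.single b (1 : ℂ) := by
  ext c
  simp [Finset.sum_apply, Pi.single_apply]

theorem clm_eq {W : Type*} [NormedAddCommGroup W] [NormedSpace ℂ W] (L : Cn n →L[ℂ] W)
    (v : Cn n) : L v = ∑ b, v b • L (EuclideanSpace.single b 1) := by
  conv_lhs => rw [cn_sum v]
  simp only [map_sum, map_smul]

theorem clm_ext {W : Type*} [NormedAddCommGroup W] [NormedSpace ℂ W] {L L' : Cn n →L[ℂ] W}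
    (h : ∀ b, L (EuclideanSpace.single b 1) = L' (EuclideanSpace.single b 1)) : L = L' := by
  ext v
  rw [clm_eq L, clm_eq L']
  simp only [h]

/-- functions with `∂̄ f = 0` are holomorphic -/
theorem hol_of_db {i : A.ι} {f : M → ℂ} (hf : A.SmAt i f)
    (h : ∀ x ∈ (A.e i).source, ∀ a, A.db i a f x = 0) :
    DifferentiableOn ℂ (fun z => f ((A.e i).symm z)) (A.e i).target := by
  refine GeoHol912.differentiableOn_of_dbj (A.e i).open_target hf fun z hz a => ?_
  have h1 := h _ ((A.e i).map_target hz) a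
  unfold Atl.db at h1
  rwa [(A.e i).right_inv hz] at h1

theorem dl_hol {i : A.ι} {f : M → ℂ}
    (hf : DifferentiableOn ℂ (fun z => f ((A.e i).symm z)) (A.e i).target) {x : M}
    (hx : x ∈ (A.e i).source) (a : Fin n) :
    dl A i a f x = fderiv ℂ (fun z => f ((A.e i).symm z)) (A.e i x) (EuclideanSpace.single a 1) :=
  R273.Levi_145.dj_holo
    (hf.differentiableAt ((A.e i).open_target.mem_nhds ((A.e i).map_source hx))) a

open Classical in
/-- `∂ u` as a family of linear forms -/
def df (A : Atl n M) (u : A.ι → M → ℂ) (i : A.ι) (x : M) : Cn n →L[ℂ] ℂ :=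
  if x ∈ (A.e i).source then lf (dv A u i x) else 0

theorem df_mem {u : A.ι → M → ℂ} (h : Aff A (fun _ _ => 1) u)
    (hp : ∀ i, ∀ x ∈ (A.e i).source, hm A (u i) i x = 0) : df A u ∈ H1 A := by
  have hh : ∀ i a, DifferentiableOn ℂ (fun z => dl A i a (u i) ((A.e i).symm z)) (A.e i).target :=
    fun i a => hol_of_db (smAt_dl (h.sm i) a) fun x hx b => by
      rw [db_dl_comm (h.sm i) hx, ← hm_apply, hp i x hx]
      rfl
  have key : ∀ i, ∀ z ∈ (A.e i).target, df A u i ((A.e i).symm z) =
      ∑ a, dl A i a (u i) ((A.e i).symm z) • pj a := fun i z hz =>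
    if_pos ((A.e i).map_target hz)
  refine ⟨fun i => ?_, fun i x hx => if_neg hx, fun i j x hx => ?_, fun i z hz v w => ?_⟩
  · exact (DifferentiableOn.fun_sum fun a _ => (hh i a).smul_const _).congr (key i)
  · refine clm_ext fun a => ?_
    unfold df
    rw [if_pos hx.1, if_pos hx.2, lf_single, h.c10 i j x hx, ContinuousLinearMap.comp_apply,
      lf_apply, one_smul]
    change ∑ d, A.J i j x d a * dv A u j x d = ∑ d, dv A u j x d * A.J i j x d a
    exact Finset.sum_congr rfl fun d _ => mul_comm _ _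
  · have hn := (A.e i).open_target.mem_nhds hz
    have hx := (A.e i).map_target hz
    have h1 : (fun z => df A u i ((A.e i).symm z)) =ᶠ[𝓝 z]
        fun z => ∑ a, dl A i a (u i) ((A.e i).symm z) • pj a := by
      filter_upwards [hn] with w hw using key i w hw
    have h2 : HasFDerivAt
        (fun z => ∑ a, dl A i a (u i) ((A.e i).symm z) • (pj a : Cn n →L[ℂ] ℂ))
        (∑ a, (fderiv ℂ (fun z => dl A i a (u i) ((A.e i).symm z)) z).smulRight
          (pj a)) z :=
      HasFDerivAt.fun_sum fun a _ =>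
        ((hh i a).differentiableAt hn).hasFDerivAt.smul_const (pj a : Cn n →L[ℂ] ℂ)
    have h3 : ∀ v w : Cn n, fderiv ℂ (fun z => df A u i ((A.e i).symm z)) z v w =
        ∑ a, ∑ b, v b * dl A i b (dl A i a (u i)) ((A.e i).symm z) * w a := by
      intro v w
      rw [h1.fderiv_eq, h2.fderiv]
      simp only [_root_.sum_apply, ContinuousLinearMap.smulRight_apply,
        _root_.smul_apply, smul_eq_mul]
      refine Finset.sum_congr rfl fun a _ => ?_
      rw [clm_eq _ v, Finset.sum_mul]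
      refine Finset.sum_congr rfl fun b _ => ?_
      rw [dl_hol (hh i a) hx, (A.e i).right_inv hz]
      rfl
    rw [h3, h3, Finset.sum_comm]
    refine Finset.sum_congr rfl fun a _ => Finset.sum_congr rfl fun b _ => ?_
    rw [dl_dl_comm (h.sm i) hx]
    ring

/-- **HODGEZ** on every compact connected Kähler manifold -/
theorem hodgeZ [T2Space M] [CompactSpace M] [ConnectedSpace M] [Finite A.ι] (P : Part A)
    (K : Kah A) : HodgeZ A P := by
  intro C
  have h : Aff A (fun _ _ => 1) (fun i y => (C.prim P i y : ℂ)) := by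
    refine ⟨fun i => smAt_ofReal (C.prim_sm P i), fun i j x hx => ⟨C.c i j x, ?_⟩⟩
    filter_upwards [ov_nhds hx, C.lc i j x hx] with y hy hy'
    rw [← hy', ← C.prim_sub P i j hy]
    push_cast
    ring
  obtain ⟨v, hv, hp⟩ := exists_ph P K h
  have hvc : ∀ i, A.SmAt i (fun y => (v y : ℂ)) := fun i => smAt_ofReal (hv i)
  have h' : Aff A (fun _ _ => 1) (fun i y => (C.prim P i y : ℂ) - (v y : ℂ)) := by
    refine ⟨fun i => (h.sm i).sub (hvc i), fun i j x hx => ?_⟩
    obtain ⟨b, hb⟩ := h.tr i j x hx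
    exact ⟨b, by filter_upwards [hb] with y hy; rw [hy]; ring⟩
  refine ⟨_, df_mem h' hp, fun y => (v y : ℂ), hvc, fun i x hx a => ?_⟩
  unfold df
  rw [if_pos hx, lf_single]
  have h1 : A.db i a (fun y => (C.prim P i y : ℂ) - (v y : ℂ)) x =
      conj (dl A i a (fun y => (C.prim P i y : ℂ) - (v y : ℂ)) x) := by
    rw [db_eq_conj]
    simp only [map_sub, Complex.conj_ofReal]
  rw [db_sub (da_of (h.sm i) hx) (da_of (hvc i) hx)] at h1
  change _ = conj (dl A i a (fun y => (C.prim P i y : ℂ) - (v y : ℂ)) x) + _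
  rw [← h1]
  ring

end

end Crest.Agent.X261.Har
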