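import Crest.Agent.R273.GreenM_5
import Crest.Agent.X261.Har.Alg

/-!
# X261, HAR (helper94), file Stk: twisted tensors and Stokes' formula

* `TnF`, `C10`, `C01`, `RF` : transformation laws with a scalar factor;
* `Tm β = ∂ β`, `tnF_Tm`;
* `stokesR` : `∫ tr (R ∂β) = 0` for a divergence free `R`;
* `Pm g S` : the `(n-1,n-1)` form `S ∧ ω^{n-2}`; `div_Pm`.
-/

set_option autoImplicit false
set_option linter.unusedSectionVars false

open Set Filter Topology Complex
open scoped ContDiff Matrix ComplexConjugate ComplexOrder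

namespace Crest.Agent.X261.Har

open Crest.Agent.R275 Crest.Agent.R275.Geo Crest.Agent.R275.Core144 Crest.Agent.R275.EDR890
open Crest.Agent.R275.SerG398 (dens)
open Crest.Agent.R275.OmT75 (dj dl dl_chain dl_mul db_chain dj_sum dj_congr)
open Crest.Agent.R273.Kah_333 Crest.Agent.R273.Vol_333
open Crest.Agent.R273.StV_37 Crest.Agent.R273.Piola_5 Crest.Agent.R273.Green_5
open Crest.Agent.R273.VolInv_5 Crest.Agent.R273.GreenM_5

noncomputable section

variable {n : ℕ} {M : Type} [TopologicalSpace M] {A : Atl n M}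

/-! ### calculus in a chart -/

theorem tend_symm {i : A.ι} {x : M} (hx : x ∈ (A.e i).source) :
    Tendsto (A.e i).symm (𝓝 (A.e i x)) (𝓝 x) := by
  have := (A.e i).continuousAt_symm ((A.e i).map_source hx)
  rwa [ContinuousAt, (A.e i).left_inv hx] at this

theorem dl_congr {i : A.ι} {f g : M → ℂ} {x : M} (hx : x ∈ (A.e i).source) (h : f =ᶠ[𝓝 x] g)
    (a : Fin n) : dl A i a f x = dl A i a g x := dj_congr ((tend_symm hx).eventually h)

/-- differentiability at `x` in the chart `i` -/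
def DA (A : Atl n M) (i : A.ι) (f : M → ℂ) (x : M) : Prop :=
  DifferentiableAt ℝ (fun z => f ((A.e i).symm z)) (A.e i x)

theorem da_of {i : A.ι} {f : M → ℂ} (hf : A.SmAt i f) {x : M} (hx : x ∈ (A.e i).source) :
    DA A i f x := Atl.SmAt.diffAt hf hx

theorem da_ov {i j : A.ι} {f : M → ℂ} {x : M} (hx : x ∈ (A.e i).source ∩ (A.e j).source)
    (hf : DA A j f x) : DA A i f x := by
  unfold DA at hf ⊢
  rw [← OmT75.tr_val hx] at hf
  have h1 : DifferentiableAt ℝ (OmT75.tr A i j) (A.e i x) :=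
    (OmT75.tr_diffAt (mem_ov hx)).restrictScalars ℝ
  exact (hf.comp (A.e i x) h1).congr_of_eventuallyEq (OmT75.read_eq f hx)

theorem DA.mul {i : A.ι} {f g : M → ℂ} {x : M} (hf : DA A i f x) (hg : DA A i g x) :
    DA A i (fun y => f y * g y) x := DifferentiableAt.mul hf hg

theorem DA.add {i : A.ι} {f g : M → ℂ} {x : M} (hf : DA A i f x) (hg : DA A i g x) :
    DA A i (fun y => f y + g y) x := DifferentiableAt.add hf hg

theorem DA.sub {i : A.ι} {f g : M → ℂ} {x : M} (hf : DA A i f x) (hg : DA A i g x) :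
    DA A i (fun y => f y - g y) x := DifferentiableAt.sub hf hg

theorem da_const {i : A.ι} (c : ℂ) {x : M} : DA A i (fun _ => c) x := differentiableAt_const _

theorem DA.conj {i : A.ι} {f : M → ℂ} {x : M} (hf : DA A i f x) :
    DA A i (fun y => conj (f y)) x :=
  Complex.conjCLE.differentiableAt.comp (A.e i x) hf

theorem da_sum {i : A.ι} {σ : Type*} {s : Finset σ} {f : σ → M → ℂ} {x : M}
    (hf : ∀ k ∈ s, DA A i (f k) x) : DA A i (fun y => ∑ k ∈ s, f k y) x :=
  DifferentiableAt.fun_sum hf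

theorem da_J {i j : A.ι} {x : M} (hx : x ∈ (A.e i).source ∩ (A.e j).source) (b a : Fin n) :
    DA A i (fun y => A.J i j y b a) x :=
  diffAt_of_ov (f := fun y => A.J i j y b a) (OmT75.J_smooth i j b a) hx

theorem dl_cst (i : A.ι) (a : Fin n) (c : ℂ) (x : M) : dl A i a (fun _ => c) x = 0 := by
  unfold OmT75.dl
  rw [dj_eq_wd]
  exact wd_const _ _ _

theorem dlm {i : A.ι} {f g : M → ℂ} {x : M} (hf : DA A i f x) (hg : DA A i g x)
    (hx : x ∈ (A.e i).source) (a : Fin n) :
    dl A i a (fun y => f y * g y) x = dl A i a f x * g x + f x * dl A i a g x := dl_mul hf hg hx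

theorem dlc {i j : A.ι} {f : M → ℂ} {x : M} (hf : DA A j f x)
    (hx : x ∈ (A.e i).source ∩ (A.e j).source) (a : Fin n) :
    dl A i a f x = ∑ b, A.J i j x b a * dl A j b f x := dl_chain hf hx a

theorem dl_add {i : A.ι} {f g : M → ℂ} {x : M} (hf : DA A i f x) (hg : DA A i g x) (a : Fin n) :
    dl A i a (fun y => f y + g y) x = dl A i a f x + dl A i a g x := by
  unfold OmT75.dl
  rw [dj_eq_wd, dj_eq_wd, dj_eq_wd]
  exact wd_add hf hg _

theorem dl_cmul {i : A.ι} {f : M → ℂ} {x : M} (c : ℂ) (hf : DA A i f x) (a : Fin n) :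
    dl A i a (fun y => c * f y) x = c * dl A i a f x := by
  unfold OmT75.dl
  rw [dj_eq_wd, dj_eq_wd]
  exact wd_const_smul c hf _

theorem dl_sub {i : A.ι} {f g : M → ℂ} {x : M} (hf : DA A i f x) (hg : DA A i g x) (a : Fin n) :
    dl A i a (fun y => f y - g y) x = dl A i a f x - dl A i a g x := by
  have h1 : (fun y => f y - g y) = fun y => f y + (-1) * g y := by
    funext y; ring
  rw [h1, dl_add hf ((da_const _).mul hg), dl_cmul _ hg]
  ring

theorem dl_fsum {i : A.ι} {σ : Type*} {s : Finset σ} {f : σ → M → ℂ} {x : M}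
    (hf : ∀ k ∈ s, DA A i (f k) x) (a : Fin n) :
    dl A i a (fun y => ∑ k ∈ s, f k y) x = ∑ k ∈ s, dl A i a (f k) x := by
  unfold OmT75.dl
  exact dj_sum hf

theorem db_eq_conj (i : A.ι) (a : Fin n) (f : M → ℂ) (x : M) :
    A.db i a f x = conj (dl A i a (fun y => conj (f y)) x) := by
  rw [dl_conj, conj_conj]

theorem dl_dl_comm {i : A.ι} {f : M → ℂ} (hf : A.SmAt i f) {x : M} (hx : x ∈ (A.e i).source)
    (a b : Fin n) : dl A i a (dl A i b f) x = dl A i b (dl A i a f) x := by
  have hz := (A.e i).map_source hx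
  have key : ∀ a b, dl A i a (dl A i b f) x =
      wd (false, a) (wd (false, b) (fun w => f ((A.e i).symm w))) (A.e i x) := by
    intro a b
    have h1 := dl_read (A := A) (dl A i b f) i a hz
    rw [(A.e i).left_inv hx] at h1
    rw [h1]
    apply wd_congr
    filter_upwards [(A.e i).open_target.mem_nhds hz] with w hw
    exact dl_read f i b hw
  rw [key, key]
  exact wd_comm (ContDiffOn.contDiffAt hf ((A.e i).open_target.mem_nhds hz)) _ _

theorem db_dl_comm {i : A.ι} {f : M → ℂ} (hf : A.SmAt i f) {x : M} (hx : x ∈ (A.e i).source)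
    (a b : Fin n) : A.db i b (dl A i a f) x = dl A i a (A.db i b f) x := by
  have hz := (A.e i).map_source hx
  have h1 := hm_read (A := A) f i hz a b
  rw [(A.e i).left_inv hx, hm_apply] at h1
  have h2 := db_read (A := A) (dl A i a f) i b hz
  rw [(A.e i).left_inv hx] at h2
  rw [h1, h2, wd_comm (ContDiffOn.contDiffAt hf ((A.e i).open_target.mem_nhds hz))]
  apply wd_congr
  filter_upwards [(A.e i).open_target.mem_nhds hz] with w hw
  exact dl_read f i a hw

theorem hm_conj {i : A.ι} {f : M → ℂ} (hf : A.SmAt i f) {x : M} (hx : x ∈ (A.e i).source) :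
    hm A (fun y => conj (f y)) i x = (hm A f i x)ᴴ := by
  ext a b
  rw [Matrix.conjTranspose_apply, hm_apply, hm_apply]
  have h1 : A.db i b (fun y => conj (f y)) = fun y => conj (dl A i b f y) := by
    funext y; exact db_conj i b f y
  rw [h1, dl_conj, db_dl_comm hf hx]
  rfl

theorem dl_hm_comm {i : A.ι} {f : M → ℂ} (hf : A.SmAt i f) {x : M} (hx : x ∈ (A.e i).source)
    (a b c : Fin n) :
    dl A i c (fun y => hm A f i y a b) x = dl A i a (fun y => hm A f i y c b) x :=
  dl_dl_comm (hf.db b) hx c a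

/-! ### twisted transformation laws -/

/-- `(1,1)` tensors with a factor -/
def TnF (A : Atl n M) (l : A.ι → A.ι → M → ℂ) (S : A.ι → M → Matrix (Fin n) (Fin n) ℂ) : Prop :=
  ∀ i j, ∀ x ∈ (A.e i).source ∩ (A.e j).source,
    S i x = l i j x • ((Jm A i j x)ᵀ * S j x * (Jm A i j x).map conj)

/-- `(1,0)` forms with a factor -/
def C10 (A : Atl n M) (l : A.ι → A.ι → M → ℂ) (p : A.ι → M → Fin n → ℂ) : Prop :=
  ∀ i j, ∀ x ∈ (A.e i).source ∩ (A.e j).source, p i x = l i j x • ((Jm A i j x)ᵀ *ᵥ p j x)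

/-- `(0,1)` forms with a factor -/
def C01 (A : Atl n M) (l : A.ι → A.ι → M → ℂ) (p : A.ι → M → Fin n → ℂ) : Prop :=
  ∀ i j, ∀ x ∈ (A.e i).source ∩ (A.e j).source,
    p i x = l i j x • (((Jm A i j x).map conj)ᵀ *ᵥ p j x)

/-- `(n-1,n-1)` forms with a factor -/
def RF (A : Atl n M) (l : A.ι → A.ι → M → ℂ) (R : A.ι → M → Matrix (Fin n) (Fin n) ℂ) : Prop :=
  ∀ i j, ∀ x ∈ (A.e i).source ∩ (A.e j).source,
    (Jm A i j x).map conj * R i x * (Jm A i j x)ᵀ = (l i j x * dens A i j x) • R j x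

variable {l m : A.ι → A.ι → M → ℂ}

theorem C10.cj {p : A.ι → M → Fin n → ℂ} (h : C10 A l p) :
    C01 A (fun i j x => conj (l i j x)) (fun i x => star (p i x)) := by
  intro i j x hx
  change star (p i x) = _
  rw [h i j x hx]
  funext a
  simp [Matrix.mulVec, dotProduct]

theorem TnF.sub {S T : A.ι → M → Matrix (Fin n) (Fin n) ℂ} (h : TnF A l S) (h' : TnF A l T) :
    TnF A l (fun i x => S i x - T i x) := by
  intro i j x hx
  change S i x - T i x = _
  rw [h i j x hx, h' i j x hx, Matrix.mul_sub, Matrix.sub_mul, smul_sub]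

theorem TnF.smul {S : A.ι → M → Matrix (Fin n) (Fin n) ℂ} (h : TnF A l S) (c : ℂ) :
    TnF A l (fun i x => c • S i x) := by
  intro i j x hx
  change c • S i x = _
  rw [h i j x hx, Matrix.mul_smul, Matrix.smul_mul, smul_comm]

theorem TnF.congr {S : A.ι → M → Matrix (Fin n) (Fin n) ℂ} (h : TnF A l S)
    (e : ∀ i j, ∀ x ∈ (A.e i).source ∩ (A.e j).source, l i j x = m i j x) : TnF A m S :=
  fun i j x hx => by rw [← e i j x hx]; exact h i j x hx

theorem tnF_vv {p q : A.ι → M → Fin n → ℂ} (hp : C10 A l p) (hq : C01 A m q) :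
    TnF A (fun i j x => l i j x * m i j x) (fun i x => Matrix.vecMulVec (p i x) (q i x)) := by
  intro i j x hx
  change Matrix.vecMulVec (p i x) (q i x) = _
  rw [hp i j x hx, hq i j x hx, Matrix.mul_vecMulVec, Matrix.vecMulVec_mul,
    ← Matrix.mulVec_transpose]
  ext a b
  simp only [Matrix.vecMulVec_apply, Pi.smul_apply, Matrix.smul_apply, smul_eq_mul]
  ring

theorem dn_tr {R S : A.ι → M → Matrix (Fin n) (Fin n) ℂ} (hR : RF A l R) (hS : TnF A m S)
    (e : ∀ i j, ∀ x ∈ (A.e i).source ∩ (A.e j).source, l i j x * m i j x = 1) :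
    Dn A (fun i x => (R i x * S i x).trace) := by
  intro i j x hx
  change (R i x * S i x).trace = dens A i j x * (R j x * S j x).trace
  rw [hS i j x hx, Matrix.mul_smul, Matrix.trace_smul,
    show R i x * ((Jm A i j x)ᵀ * S j x * (Jm A i j x).map conj) =
      (R i x * (Jm A i j x)ᵀ * S j x) * (Jm A i j x).map conj by simp only [Matrix.mul_assoc],
    Matrix.trace_mul_comm,
    show (Jm A i j x).map conj * (R i x * (Jm A i j x)ᵀ * S j x) =
      ((Jm A i j x).map conj * R i x * (Jm A i j x)ᵀ) * S j x by simp only [Matrix.mul_assoc],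
    hR i j x hx, Matrix.smul_mul, Matrix.trace_smul, smul_eq_mul, smul_eq_mul]
  linear_combination (dens A i j x * (R j x * S j x).trace) * e i j x hx

/-- `∂ β` -/
def Tm (A : Atl n M) (β : A.ι → M → Fin n → ℂ) (i : A.ι) (x : M) : Matrix (Fin n) (Fin n) ℂ :=
  Matrix.of fun a b => dl A i a (fun y => β i y b) x

theorem Tm_apply (β : A.ι → M → Fin n → ℂ) (i : A.ι) (x : M) (a b : Fin n) :
    Tm A β i x a b = dl A i a (fun y => β i y b) x := rfl

theorem tnF_Tm {c : A.ι → A.ι → ℂ} {β : A.ι → M → Fin n → ℂ}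
    (hs : ∀ i b, A.SmAt i (fun y => β i y b)) (h : C01 A (fun i j _ => c i j) β) :
    TnF A (fun i j _ => c i j) (Tm A β) := by
  intro i j x hx
  ext a b
  have hO : (A.e i).source ∩ (A.e j).source ∈ 𝓝 x :=
    ((A.e i).open_source.inter (A.e j).open_source).mem_nhds hx
  have h1 : (fun y => β i y b) =ᶠ[𝓝 x]
      fun y => c i j * ∑ d, conj (A.J i j y d b) * β j y d := by
    filter_upwards [hO] with y hy
    rw [h i j y hy]
    simp [Matrix.mulVec, dotProduct]
  have hβ : ∀ d, DA A i (fun y => β j y d) x := fun d => da_ov hx (da_of (hs j d) hx.2)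
  have hJ : ∀ d, DA A i (fun y => conj (A.J i j y d b)) x := fun d => (da_J hx d b).conj
  rw [Tm_apply, dl_congr hx.1 h1, dl_cmul _ (da_sum fun d _ => (hJ d).mul (hβ d)),
    dl_fsum fun d _ => (hJ d).mul (hβ d)]
  simp only [Matrix.smul_apply, smul_eq_mul, Matrix.mul_apply, Matrix.transpose_apply,
    Matrix.map_apply, Jm_apply, Tm_apply]
  congr 1
  refine Finset.sum_congr rfl fun d _ => ?_
  rw [dlm (hJ d) (hβ d) hx.1, dl_conj, OmT75.db_J i j hx, map_zero, zero_mul, zero_add,
    dlc (da_of (hs j d) hx.2) hx a, mul_comm]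

theorem rf_adj {g : A.ι → M → Matrix (Fin n) (Fin n) ℂ} (hg : Tn A g) :
    RF A (fun _ _ _ => 1) (fun i x => (g i x).adjugate) := by
  intro i j x hx
  change _ * (g i x).adjugate * _ = (1 * dens A i j x) • (g j x).adjugate
  rw [hg i j x hx, Matrix.adjugate_mul_distrib, Matrix.adjugate_mul_distrib, one_mul]
  calc ((Jm A i j x).map conj) * (((Jm A i j x).map conj).adjugate * ((g j x).adjugate *
        (Jm A i j x)ᵀ.adjugate)) * (Jm A i j x)ᵀ
      = (((Jm A i j x).map conj) * ((Jm A i j x).map conj).adjugate) * ((g j x).adjugate *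
        ((Jm A i j x)ᵀ.adjugate * (Jm A i j x)ᵀ)) := by
        simp only [Matrix.mul_assoc]
    _ = dens A i j x • (g j x).adjugate := by
        rw [Matrix.mul_adjugate, Matrix.adjugate_mul, det_map_conj, Matrix.det_transpose,
          Matrix.smul_mul, Matrix.one_mul, Matrix.mul_smul, Matrix.mul_one, smul_smul, dens_Jm,
          mul_comm]

/-- divergence free fields -/
def Dv0 (A : Atl n M) (R : A.ι → M → Matrix (Fin n) (Fin n) ℂ) : Prop :=
  ∀ i, ∀ x ∈ (A.e i).source, ∀ b, ∑ a, dl A i a (fun y => R i y b a) x = 0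

theorem dv0_adj {g : A.ι → M → Matrix (Fin n) (Fin n) ℂ} (hg : CF A g) :
    Dv0 A (fun i x => (g i x).adjugate) := by
  intro i x hx b
  have hz := (A.e i).map_source hx
  have := piola (m := fun w => g i ((A.e i).symm w)) (z := A.e i x)
    (fun a c => hg.diffAt hz a c) (fun a c d => hg.closed i _ hz a c d) b
  rw [← this]
  refine Finset.sum_congr rfl fun a _ => ?_
  have e := dl_read (A := A) (fun y => (g i y).adjugate b a) i a hz
  rw [(A.e i).left_inv hx] at e
  exact e

theorem smAt_mm {i : A.ι} {R S : M → Matrix (Fin n) (Fin n) ℂ}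
    (hR : ∀ a b, A.SmAt i (fun y => R y a b)) (hS : ∀ a b, A.SmAt i (fun y => S y a b))
    (a b : Fin n) : A.SmAt i (fun y => (R y * S y) a b) := by
  simp only [Matrix.mul_apply]
  exact ContDiffOn.sum fun c _ => (hR a c).mul (hS c b)

theorem smAt_trace {i : A.ι} {R : M → Matrix (Fin n) (Fin n) ℂ}
    (hR : ∀ a b, A.SmAt i (fun y => R y a b)) : A.SmAt i (fun y => (R y).trace) := by
  simp only [Matrix.trace, Matrix.diag]
  exact ContDiffOn.sum fun c _ => hR c c

theorem smAt_Tm {β : A.ι → M → Fin n → ℂ} {i : A.ι} (hs : ∀ b, A.SmAt i (fun y => β i y b))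
    (a b : Fin n) : A.SmAt i (fun y => Tm A β i y a b) := smAt_dl (hs b) a

/-- **Stokes** : `∫ tr (R ∂β) = 0` -/
theorem stokesR [T2Space M] [CompactSpace M] (P : Part A)
    {R : A.ι → M → Matrix (Fin n) (Fin n) ℂ} {β : A.ι → M → Fin n → ℂ}
    (hRs : ∀ i a b, A.SmAt i (fun y => R i y a b)) (hs : ∀ i b, A.SmAt i (fun y => β i y b))
    (hR : RF A l R) (hβ : C01 A m β)
    (e : ∀ i j, ∀ x ∈ (A.e i).source ∩ (A.e j).source, l i j x * m i j x = 1) (hd : Dv0 A R) :
    totc P (fun i x => (R i x * Tm A β i x).trace) = 0 := by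
  have hV : V10 A (fun i x a => ∑ b, R i x b a * β i x b) := by
    refine ⟨fun i a => ContDiffOn.sum fun b _ => (hRs i b a).mul (hs i b), fun i j x hx d => ?_⟩
    have h1 : ∀ k, (fun a => ∑ b, R k x b a * β k x b) = (R k x)ᵀ *ᵥ β k x := fun k => rfl
    have h2 : Jm A i j x *ᵥ ((R i x)ᵀ *ᵥ β i x) = dens A i j x • ((R j x)ᵀ *ᵥ β j x) := by
      have h3 := congrArg Matrix.transpose (hR i j x hx)
      rw [Matrix.transpose_mul, Matrix.transpose_mul, Matrix.transpose_transpose,
        Matrix.transpose_smul] at h3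
      rw [hβ i j x hx, Matrix.mulVec_smul, Matrix.mulVec_smul, Matrix.mulVec_mulVec,
        Matrix.mulVec_mulVec, Matrix.mul_assoc, h3, Matrix.smul_mulVec, smul_smul]
      congr 1
      linear_combination dens A i j x * e i j x hx
    exact congrFun h2 d
  rw [← stokes10c P hV]
  refine totc_congr P fun i x hx => ?_
  have h1 : ∀ a, dl A i a (fun y => ∑ b, R i y b a * β i y b) x =
      ∑ b, (dl A i a (fun y => R i y b a) x * β i x b + R i x b a * Tm A β i x a b) := by
    intro a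
    rw [dl_fsum fun b _ => (da_of (hRs i b a) hx).mul (da_of (hs i b) hx)]
    refine Finset.sum_congr rfl fun b _ => ?_
    rw [dlm (da_of (hRs i b a) hx) (da_of (hs i b) hx) hx]
    rfl
  simp only [h1]
  rw [Finset.sum_comm]
  simp only [Finset.sum_add_distrib, ← Finset.sum_mul, hd i x hx, zero_mul, zero_add]
  rfl

/-! ### the form `S ∧ ω^{n-2}` -/

/-- `S ∧ ω^{n-2}` -/
def Pm (g S : Matrix (Fin n) (Fin n) ℂ) : Matrix (Fin n) (Fin n) ℂ :=
  (g⁻¹ * S).trace • g.adjugate - g⁻¹ * S * g.adjugate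

theorem adj_eq {g : Matrix (Fin n) (Fin n) ℂ} (hg : g.det ≠ 0) : g.adjugate = g.det • g⁻¹ := by
  rw [Matrix.inv_def, smul_smul, Ring.mul_inverse_cancel _ (isUnit_iff_ne_zero.2 hg), one_smul]

theorem trace_Pm {g : Matrix (Fin n) (Fin n) ℂ} (hg : g.det ≠ 0)
    (S T : Matrix (Fin n) (Fin n) ℂ) : (Pm g S * T).trace = g.det * Bq g⁻¹ S T := by
  unfold Pm Bq
  rw [adj_eq hg]
  simp only [Matrix.sub_mul, Matrix.smul_mul, Matrix.mul_smul, Matrix.trace_sub,
    Matrix.trace_smul, smul_eq_mul]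
  ring

theorem smAt_inv (K : Kah A) (i : A.ι) (a b : Fin n) : A.SmAt i (fun y => (K.g i y)⁻¹ a b) := by
  have h3 : ContDiffOn ℝ ∞ (fun z => (K.g i ((A.e i).symm z)).det) (A.e i).target :=
    smAt_det (K.sm i)
  have h1 := (h3.inv fun z hz => K_det_ne K ((A.e i).map_target hz)).mul
    (smAt_adj (kah_cf K) i b a)
  refine h1.congr fun z hz => ?_
  have hd := K_det_ne K ((A.e i).map_target hz)
  change (K.g i ((A.e i).symm z))⁻¹ a b = _ * (K.g i ((A.e i).symm z)).adjugate a b
  rw [adj_eq hd, Matrix.smul_apply, smul_eq_mul]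
  simp only [Pi.inv_apply]
  field_simp

theorem smAt_Pm (K : Kah A) {i : A.ι} {S : M → Matrix (Fin n) (Fin n) ℂ}
    (hS : ∀ a b, A.SmAt i (fun y => S y a b)) (a b : Fin n) :
    A.SmAt i (fun y => Pm (K.g i y) (S y) a b) := by
  have hN := smAt_mm (smAt_inv K i) hS
  have hA : ∀ a b, A.SmAt i (fun y => (K.g i y).adjugate a b) := fun a b =>
    smAt_adj (kah_cf K) i b a
  exact ((smAt_trace hN).mul (hA a b)).sub (smAt_mm hN hA a b)

theorem rf_Pm (K : Kah A) {S : A.ι → M → Matrix (Fin n) (Fin n) ℂ} (hS : TnF A l S) :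
    RF A l (fun i x => Pm (K.g i x) (S i x)) := by
  intro i j x hx
  have h0 := rf_adj (K_tn K) i j x hx
  set J := Jm A i j x with hJ
  have hJd : J.det ≠ 0 := Jm_det_ne hx
  have hJu : IsUnit J.det := isUnit_iff_ne_zero.2 hJd
  have hJt : IsUnit Jᵀ.det := by rw [Matrix.det_transpose]; exact hJu
  have hJc : IsUnit (J.map conj).det := by
    rw [det_map_conj, isUnit_iff_ne_zero]
    exact (map_ne_zero _).2 hJd
  have h1 : (K.g i x)⁻¹ * S i x =
      l i j x • ((J.map conj)⁻¹ * ((K.g j x)⁻¹ * S j x) * J.map conj) := by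
    rw [K.tr i j x hx, hS i j x hx, ← hJ, Matrix.mul_inv_rev, Matrix.mul_inv_rev, Matrix.mul_smul]
    congr 1
    calc (J.map conj)⁻¹ * ((K.g j x)⁻¹ * Jᵀ⁻¹) * (Jᵀ * S j x * J.map conj)
        = (J.map conj)⁻¹ * ((K.g j x)⁻¹ * ((Jᵀ⁻¹ * Jᵀ) * S j x)) * J.map conj := by
          simp only [Matrix.mul_assoc]
      _ = _ := by rw [Matrix.nonsing_inv_mul _ hJt, Matrix.one_mul]
  have h2 : ((J.map conj)⁻¹ * ((K.g j x)⁻¹ * S j x) * J.map conj).trace =
      ((K.g j x)⁻¹ * S j x).trace := by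
    rw [Matrix.trace_mul_comm, ← Matrix.mul_assoc, Matrix.mul_nonsing_inv _ hJc, Matrix.one_mul]
  change J.map conj * Pm (K.g i x) (S i x) * Jᵀ = _ • Pm (K.g j x) (S j x)
  change J.map conj * (K.g i x).adjugate * Jᵀ = (1 * dens A i j x) • (K.g j x).adjugate at h0
  unfold Pm
  rw [h1, Matrix.trace_smul, h2, Matrix.mul_sub, Matrix.sub_mul, Matrix.mul_smul, Matrix.smul_mul,
    h0, Matrix.smul_mul, Matrix.mul_smul, Matrix.smul_mul]
  have h3 : J.map conj * ((J.map conj)⁻¹ * ((K.g j x)⁻¹ * S j x) * J.map conj *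
      (K.g i x).adjugate) * Jᵀ = (J.map conj * (J.map conj)⁻¹) * ((K.g j x)⁻¹ * S j x) *
        (J.map conj * (K.g i x).adjugate * Jᵀ) := by simp only [Matrix.mul_assoc]
  rw [h3, h0, Matrix.mul_nonsing_inv _ hJc, Matrix.one_mul, Matrix.mul_smul, smul_sub, smul_smul,
    smul_smul, smul_smul, smul_eq_mul]
  congr 2 <;> ring

theorem sym_sum (h : Matrix (Fin n) (Fin n) ℂ) (T : Fin n → Fin n → Fin n → ℂ)
    (hT : ∀ a c d, T a c d = T c a d) (b : Fin n) :
    ∑ a, (∑ d, ∑ c, h d c * T a c d) * h b a = ∑ a, ∑ d, (∑ c, h b c * T a c d) * h d a := by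
  have e1 : ∑ a, (∑ d, ∑ c, h d c * T a c d) * h b a =
      ∑ d, ∑ a, ∑ c, h d c * T a c d * h b a := by
    rw [Finset.sum_comm]
    refine Finset.sum_congr rfl fun a _ => ?_
    simp only [Finset.sum_mul]
  have e2 : ∑ a, ∑ d, (∑ c, h b c * T a c d) * h d a =
      ∑ d, ∑ c, ∑ a, h b c * T a c d * h d a := by
    rw [Finset.sum_comm]
    refine Finset.sum_congr rfl fun d _ => ?_
    rw [Finset.sum_comm]
    simp only [Finset.sum_mul]
  rw [e1, e2]
  refine Finset.sum_congr rfl fun d _ => Finset.sum_congr rfl fun a _ =>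
    Finset.sum_congr rfl fun c _ => ?_
  rw [hT c a d]
  ring

theorem dl_K (K : Kah A) {i : A.ι} {x : M} (hx : x ∈ (A.e i).source) (a b c : Fin n) :
    dl A i c (fun y => K.g i y a b) x = dl A i a (fun y => K.g i y c b) x := by
  have hz := (A.e i).map_source hx
  have e1 := dl_read (A := A) (fun y => K.g i y a b) i c hz
  have e2 := dl_read (A := A) (fun y => K.g i y c b) i a hz
  rw [(A.e i).left_inv hx] at e1 e2
  rw [e1, e2]
  exact K.closed i _ hz a b c

theorem dv0_Pm (K : Kah A) {S : A.ι → M → Matrix (Fin n) (Fin n) ℂ}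
    (hS : ∀ i a b, A.SmAt i (fun y => S i y a b))
    (hc : ∀ i, ∀ x ∈ (A.e i).source, ∀ a b c,
      dl A i c (fun y => S i y a b) x = dl A i a (fun y => S i y c b) x) :
    Dv0 A (fun i x => Pm (K.g i x) (S i x)) := by
  intro i x hx b
  set N : M → Matrix (Fin n) (Fin n) ℂ := fun y => (K.g i y)⁻¹ * S i y with hN
  have hNs : ∀ a b, A.SmAt i (fun y => N y a b) := smAt_mm (smAt_inv K i) (hS i)
  have hA : ∀ a b, A.SmAt i (fun y => (K.g i y).adjugate a b) := fun a b =>
    smAt_adj (kah_cf K) i b a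
  have hd := dv0_adj (kah_cf K) i x hx
  set T : Fin n → Fin n → Fin n → ℂ := fun a c d =>
    ∑ e, K.g i x c e * dl A i a (fun y => N y e d) x with hT
  have hT1 : ∀ a c d, T a c d = dl A i a (fun y => S i y c d) x -
      ∑ e, dl A i a (fun y => K.g i y c e) x * N x e d := by
    intro a c d
    have h1 : (fun y => S i y c d) =ᶠ[𝓝 x] fun y => ∑ e, K.g i y c e * N y e d := by
      filter_upwards [(A.e i).open_source.mem_nhds hx] with y hy
      have : K.g i y * N y = S i y := by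
        rw [hN, ← Matrix.mul_assoc,
          Matrix.mul_nonsing_inv _ (isUnit_iff_ne_zero.2 (K_det_ne K hy)), Matrix.one_mul]
      rw [← this, Matrix.mul_apply]
    rw [dl_congr hx h1, dl_fsum fun e _ => (da_of (K.sm i c e) hx).mul (da_of (hNs e d) hx),
      ← Finset.sum_sub_distrib]
    refine Finset.sum_congr rfl fun e _ => ?_
    rw [dlm (da_of (K.sm i c e) hx) (da_of (hNs e d) hx) hx]
    ring
  have hTs : ∀ a c d, T a c d = T c a d := by
    intro a c d
    rw [hT1, hT1, hc i x hx c d a]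
    congr 1
    exact Finset.sum_congr rfl fun e _ => by rw [dl_K K hx c e a]
  have hD : ∀ a c d, dl A i a (fun y => N y c d) x = ∑ e, (K.g i x)⁻¹ c e * T a e d := by
    intro a c d
    have h1 := Matrix.nonsing_inv_mul _ (isUnit_iff_ne_zero.2 (K_det_ne K hx))
    have h2 : ∑ e, (K.g i x)⁻¹ c e * T a e d =
        ∑ f, ((K.g i x)⁻¹ * K.g i x) c f * dl A i a (fun y => N y f d) x := by
      simp only [hT, Matrix.mul_apply, Finset.mul_sum, Finset.sum_mul]
      rw [Finset.sum_comm]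
      exact Finset.sum_congr rfl fun f _ => Finset.sum_congr rfl fun e _ => by ring
    rw [h2, h1]
    simp [Matrix.one_apply]
  have h1 : ∀ a, dl A i a (fun y => Pm (K.g i y) (S i y) b a) x =
      ((∑ d, dl A i a (fun y => N y d d) x) * (K.g i x).adjugate b a -
        ∑ d, dl A i a (fun y => N y b d) x * (K.g i x).adjugate d a) +
      ((N x).trace * dl A i a (fun y => (K.g i y).adjugate b a) x -
        ∑ d, N x b d * dl A i a (fun y => (K.g i y).adjugate d a) x) := by
    intro a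
    have e : (fun y => Pm (K.g i y) (S i y) b a) = fun y =>
        (∑ d, N y d d) * (K.g i y).adjugate b a - ∑ d, N y b d * (K.g i y).adjugate d a := rfl
    have s1 : DA A i (fun y => ∑ d, N y d d) x := da_sum fun d _ => da_of (hNs d d) hx
    rw [e, dl_sub (s1.mul (da_of (hA b a) hx))
      (da_sum fun d _ => (da_of (hNs b d) hx).mul (da_of (hA d a) hx)),
      dlm s1 (da_of (hA b a) hx) hx, dl_fsum fun d _ => da_of (hNs d d) hx,
      dl_fsum fun d _ => (da_of (hNs b d) hx).mul (da_of (hA d a) hx),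
      Finset.sum_congr rfl fun d _ => dlm (da_of (hNs b d) hx) (da_of (hA d a) hx) hx a,
      Finset.sum_add_distrib]
    change _ = _ + ((∑ d, N x d d) * _ - _)
    ring
  simp only [h1]
  rw [Finset.sum_add_distrib, Finset.sum_sub_distrib, Finset.sum_sub_distrib, ← Finset.mul_sum,
    hd b, Finset.sum_comm (f := fun a d => N x b d * _)]
  simp only [← Finset.mul_sum, hd, mul_zero, Finset.sum_const_zero, sub_zero, add_zero, hD]
  rw [adj_eq (K_det_ne K hx)]
  simp only [Matrix.smul_apply, smul_eq_mul]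
  have h2 := sym_sum (K.g i x)⁻¹ T hTs b
  have h3 : ∀ (u v : ℂ), u * ((K.g i x).det * v) = (K.g i x).det * (u * v) := fun u v => by ring
  simp only [h3, ← Finset.mul_sum]
  rw [h2, sub_self]

end

end Crest.Agent.X261.Har
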